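import Mathlib

/-!
# P032: components of an open set without unit distances

`mk W V M`: the union of the components of `W` which meet `V ∪ M`.
`comp_lf`: if `V` has locally finitely many pieces and `M` is locally finite, the components in
`mk W V M` are locally finite: near `x` a point of the closure is in the closure of a component
whose closure contains `x`.
-/

open Set Filter Topology Metric

noncomputable section

namespace Vale.Agent.P032.H355

/-- the union of the components of `W` which meet `V ∪ M` -/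
def mk (W V M : Set ℂ) : Set ℂ :=
  {w | w ∈ W ∧ (connectedComponentIn W w ∩ (V ∪ M)).Nonempty}

theorem mk_sub (W V M : Set ℂ) : mk W V M ⊆ W := fun _ hw => hw.1

theorem mem_mk_of {W V M Q : Set ℂ} {w p : ℂ} (hQ : IsPreconnected Q) (hQW : Q ⊆ W) (hw : w ∈ Q)
    (hp : p ∈ Q) (hpV : p ∈ V ∪ M) : w ∈ mk W V M :=
  ⟨hQW hw, p, hQ.subset_connectedComponentIn hw hQW hp, hpV⟩

theorem isOpen_mk {W V M : Set ℂ} (hW : IsOpen W) : IsOpen (mk W V M) := by
  rw [isOpen_iff_mem_nhds]
  rintro w ⟨hw, hne⟩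
  filter_upwards [(hW.connectedComponentIn (x := w)).mem_nhds (mem_connectedComponentIn hw)]
    with v hv
  refine ⟨connectedComponentIn_subset W w hv, ?_⟩
  rwa [← connectedComponentIn_eq hv]

theorem diam_of_free {Q : Set ℂ} (hQ : IsPreconnected Q) (hfree : ∀ x ∈ Q, ∀ y ∈ Q, dist x y ≠ 1)
    {p q : ℂ} (hp : p ∈ Q) (hq : q ∈ Q) : dist p q < 1 := by
  by_contra hcon
  push Not at hcon
  have h1 : IsPreconnected ((fun z => dist p z) '' Q) :=
    hQ.image _ (continuous_const.dist continuous_id).continuousOn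
  have h2 : (1 : ℝ) ∈ (fun z => dist p z) '' Q :=
    h1.Icc_subset ⟨p, hp, dist_self p⟩ ⟨q, hq, rfl⟩ ⟨zero_le_one, hcon⟩
  obtain ⟨z, hz, hz1⟩ := h2
  exact hfree p hp z hz hz1

theorem comp_lf {W V M : Set ℂ} (hfree : ∀ x ∈ W, ∀ y ∈ W, dist x y ≠ 1) (hVW : V ⊆ W)
    (hfin : ∀ x r, ∃ F : Set (Set ℂ), F.Finite ∧ (∀ A ∈ F, IsPreconnected A ∧ A ⊆ V) ∧
      V ∩ ball x r ⊆ ⋃₀ F)
    (hM : ∀ x r, (M ∩ ball x r).Finite) (x : ℂ) :
    ∀ᶠ w in 𝓝 x, w ∈ closure (mk W V M) →
      ∃ C ⊆ W, IsPreconnected C ∧ C.Nonempty ∧ w ∈ closure C ∧ x ∈ closure C := by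
  classical
  obtain ⟨F, hF, hFV, hcov⟩ := hfin x 2
  set 𝒞 : Set (Set ℂ) := {C | ∃ w ∈ W, dist w x < 1 ∧ C = connectedComponentIn W w ∧
    (C ∩ (V ∪ M)).Nonempty} with h𝒞
  have hfinC : 𝒞.Finite := by
    have h1 : 𝒞 ⊆ (fun A : Set ℂ => if h : A.Nonempty then connectedComponentIn W h.some else ∅) '' F
        ∪ (fun p : ℂ => connectedComponentIn W p) '' (M ∩ ball x 2) := by
      rintro C ⟨w, hw, hwx, rfl, p, hp, hpVM⟩
      have hpw : dist w p < 1 := diam_of_free isPreconnected_connectedComponentIn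
        (fun a ha b hb => hfree a (connectedComponentIn_subset W w ha) b
          (connectedComponentIn_subset W w hb)) (mem_connectedComponentIn hw) hp
      have hpx : p ∈ ball x 2 := by
        have h2 := dist_triangle_left p x w
        exact mem_ball.2 (by linarith)
      rcases hpVM with hpV | hpM
      · left
        obtain ⟨A, hA, hpA⟩ := hcov ⟨hpV, hpx⟩
        have hne : A.Nonempty := ⟨p, hpA⟩
        refine ⟨A, hA, ?_⟩
        simp only [dif_pos hne]
        have h3 : p ∈ connectedComponentIn W hne.some :=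
          (hFV A hA).1.subset_connectedComponentIn hne.some_mem ((hFV A hA).2.trans hVW) hpA
        rw [connectedComponentIn_eq h3, connectedComponentIn_eq hp]
      · right
        exact ⟨p, ⟨hpM, hpx⟩, (connectedComponentIn_eq hp).symm⟩
    exact ((hF.image _).union ((hM x 2).image _)).subset h1
  have h1 : ∀ᶠ w in 𝓝 x, ∀ C ∈ 𝒞, w ∈ closure C → x ∈ closure C := by
    rw [Filter.eventually_all_finite hfinC]
    intro C _
    by_cases hx : x ∈ closure C
    · exact Eventually.of_forall fun _ _ => hx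
    · filter_upwards [isClosed_closure.isOpen_compl.mem_nhds hx] with w hw hw'
      exact absurd hw' hw
  filter_upwards [h1, ball_mem_nhds x one_pos] with w hw hwx hwc
  have h2 : w ∈ closure (mk W V M ∩ ball x 1) := by
    rw [mem_closure_iff_nhds]
    intro t ht
    obtain ⟨v, hv1, hv2⟩ := mem_closure_iff_nhds.1 hwc (t ∩ ball x 1)
      (inter_mem ht (isOpen_ball.mem_nhds hwx))
    exact ⟨v, hv1.1, hv2, hv1.2⟩
  have h3 : mk W V M ∩ ball x 1 ⊆ ⋃ C ∈ 𝒞, C := by
    rintro v ⟨⟨hv, hne⟩, hvx⟩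
    exact mem_iUnion₂.2 ⟨connectedComponentIn W v, ⟨v, hv, mem_ball.1 hvx, rfl, hne⟩,
      mem_connectedComponentIn hv⟩
  have h4 := closure_mono h3 h2
  rw [hfinC.closure_biUnion] at h4
  obtain ⟨C, hC, hwC⟩ := mem_iUnion₂.1 h4
  refine ⟨C, ?_, ?_, ?_, hwC, hw C hC hwC⟩
  · obtain ⟨v, -, -, rfl, -⟩ := hC
    exact connectedComponentIn_subset W v
  · obtain ⟨v, -, -, rfl, -⟩ := hC
    exact isPreconnected_connectedComponentIn
  · obtain ⟨v, -, -, rfl, h5⟩ := hC
    exact h5.mono inter_subset_left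

end Vale.Agent.P032.H355
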