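import Vale.Agent.P032W.H355.MapF
import Vale.Agent.P032W.H355.LFcirc

/-!
# P032: a critical six-coloured point of a planar map

`Base.exists_all`: if the point `x` is in the closures of all open sets `V i` of a map and the unit
circle about `x` meets all these closures, there is a connected frame `U`, `T` above the `V i` with
`T x` the set of all colours.  (Marked points `w n` in the faces of colour `e n` which converge to
`x` are kept by the reduction.)
-/

open Set Filter Topology Metric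

noncomputable section

namespace Vale.Agent.P032.H355

open Vale.Agent.P032.Six

/-- a sequence of points of the sets `A n` which converges to `x` with decreasing distances -/
theorem exists_marks_seq {A : ℕ → Set ℂ} {x : ℂ} (hA : ∀ n, x ∈ closure (A n))
    (hx : ∀ n, x ∉ A n) :
    ∃ w : ℕ → ℂ, (∀ n, w n ∈ A n) ∧ (∀ m n, m < n → dist (w n) x < dist (w m) x / 2) ∧
      Tendsto w atTop (𝓝 x) := by
  have h1 : ∀ n : ℕ, ∀ ε : ℝ, ∃ y, 0 < ε → y ∈ A n ∧ dist y x < ε := by
    intro n ε
    by_cases hε : 0 < ε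
    · obtain ⟨y, hy, hd⟩ := Metric.mem_closure_iff.1 (hA n) ε hε
      exact ⟨y, fun _ => ⟨hy, by rwa [dist_comm]⟩⟩
    · exact ⟨x, fun h => absurd h hε⟩
  choose f hf using h1
  let w : ℕ → ℂ := fun n => Nat.rec (f 0 1) (fun n y => f (n + 1) (dist y x / 2)) n
  have hws : ∀ n, w (n + 1) = f (n + 1) (dist (w n) x / 2) := fun n => rfl
  have hwA : ∀ n, w n ∈ A n := by
    intro n
    induction n with
    | zero => exact (hf 0 1 one_pos).1
    | succ n ih =>
      have h3 : w n ≠ x := fun h => hx n (h ▸ ih)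
      have h2 : 0 < dist (w n) x / 2 := half_pos (dist_pos.2 h3)
      rw [hws]
      exact (hf _ _ h2).1
  have hpos : ∀ n, 0 < dist (w n) x := fun n => dist_pos.2 fun h => hx n (h ▸ hwA n)
  have hlt : ∀ n, dist (w (n + 1)) x < dist (w n) x / 2 := by
    intro n
    rw [hws]
    exact (hf _ _ (half_pos (hpos n))).2
  refine ⟨w, hwA, ?_, ?_⟩
  · intro m n hmn
    induction n, hmn using Nat.le_induction with
    | base => exact hlt m
    | succ n hn ih =>
      have h2 := hlt n
      have h3 := hpos n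
      linarith
  · have hle : ∀ n, dist (w n) x ≤ dist (w 0) x * (1 / 2) ^ n := by
      intro n
      induction n with
      | zero => simp
      | succ n ih =>
        have h2 := hlt n
        rw [pow_succ]
        linarith
    rw [tendsto_iff_dist_tendsto_zero]
    refine squeeze_zero (fun n => dist_nonneg) hle ?_
    have h2 := (tendsto_pow_atTop_nhds_zero_of_lt_one (r := (1 / 2 : ℝ)) (by norm_num)
      (by norm_num)).const_mul (dist (w 0) x)
    simpa using h2

/-- the reduced family with marked points -/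
theorem GMax.exists_red_m {ι : Type*} {k : ℕ} {g : ι → ℝ → ℂ} {pal : ι → Set (Fin k)}
    {V U : Fin k → Set ℂ} {K : ι → Set ℝ} {S : ι → Set ℝ} (h : GMax g pal V U)
    (hb : Base g pal V) (hs : Seg g U K) (hS : ∀ e, Mks g U e (S e)) {x₀ : ℂ} (hx₀ : x₀ ∈ XX U)
    (hall : ∀ i, i ∈ BB g pal U x₀) {w : ℕ → ℂ} {e : ℕ → Fin k} (hwV : ∀ n, w n ∈ V (e n))
    (hdec : ∀ m n, m < n → dist (w n) x₀ < dist (w m) x₀ / 2) (hlim : Tendsto w atTop (𝓝 x₀)) :
    ∃ R : Fin k → Set ℂ, (∀ i, IsOpen (R i)) ∧ (∀ i, R i ⊆ Uo g V U S i) ∧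
      (∀ v, v ∉ XX U → ∃ i, v ∈ R i) ∧
      (∀ x ∈ XX U, ∀ i, x ∈ closure (R i) → i ∈ BB g pal U x) ∧
      ∀ n, ∀ i, w n ∈ closure (R i) → i = e n := by
  classical
  have hwX : ∀ n, w n ∉ XX U := fun n hn => hn (e n) (h.sub (e n) (hwV n))
  have hpos : ∀ n, 0 < dist (w n) x₀ := fun n => dist_pos.2 fun hn => hwX n (hn ▸ hx₀)
  -- the marked points are isolated
  have hiso : ∀ n m, dist (w m) (w n) < dist (w n) x₀ / 2 → m = n := by
    intro n m hd
    have h1 := dist_triangle (w m) (w n) x₀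
    have h2 := dist_triangle_left (w n) x₀ (w m)
    rcases lt_trichotomy m n with h3 | h3 | h3
    · have h4 := hdec m n h3
      have h5 := hpos n
      linarith
    · exact h3
    · have h4 := hdec n m h3
      linarith
  have hinj : ∀ n m, w m = w n → m = n := fun n m hmn =>
    hiso n m (by rw [hmn, dist_self]; exact half_pos (hpos n))
  set M : Set ℂ := range w with hM
  have hcl : IsClosed (insert x₀ M) := hlim.isCompact_insert_range.isClosed
  set D : Set ℂ := XX U ∪ M with hD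
  have hDc : IsClosed D := by
    have h1 : D = XX U ∪ insert x₀ M := by
      ext y
      constructor
      · rintro (hy | hy)
        · exact Or.inl hy
        · exact Or.inr (Or.inr hy)
      · rintro (hy | rfl | hy)
        · exact Or.inl hy
        · exact Or.inl hx₀
        · exact Or.inr hy
    rw [h1]
    exact h.isClosed_XX.union hcl
  set B : ℂ → Set (Fin k) := fun x => {i | (x ∈ XX U → i ∈ BB g pal U x) ∧ ∀ n, w n = x → i = e n}
    with hB
  have hBX : ∀ x ∈ XX U, B x = BB g pal U x := by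
    intro x hx
    ext i
    exact ⟨fun hi => hi.1 hx, fun hi => ⟨fun _ => hi, fun n hn => absurd (hn ▸ hx) (hwX n)⟩⟩
  have hBw : ∀ n, B (w n) = {e n} := by
    intro n
    ext i
    refine ⟨fun hi => hi.2 n rfl, fun hi => ⟨fun hn => absurd hn (hwX n), fun m hm => ?_⟩⟩
    rw [hinj n m hm]
    exact hi
  -- near a marked point
  have hnearw : ∀ n, ∀ᶠ y in 𝓝 (w n), y ∈ D → y = w n := by
    intro n
    filter_upwards [h.isClosed_XX.isOpen_compl.mem_nhds (hwX n),
      ball_mem_nhds (w n) (half_pos (hpos n))] with y hy1 hy2 hyD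
    rcases hyD with hyD | ⟨m, rfl⟩
    · exact absurd hyD hy1
    · rw [hiso n m hy2]
  -- near another point of `XX`
  have hnearX : ∀ x ∈ XX U, x ≠ x₀ → ∀ᶠ y in 𝓝 x, y ∈ D → y ∈ XX U := by
    intro x hx hne
    have h1 : x ∉ insert x₀ M := by
      rintro (h2 | ⟨n, h2⟩)
      · exact hne h2
      · exact hwX n (h2 ▸ hx)
    filter_upwards [hcl.isOpen_compl.mem_nhds h1] with y hy hyD
    rcases hyD with hyD | hyD
    · exact hyD
    · exact absurd (Or.inr hyD) hy
  obtain ⟨R, h1, h2, h3, h4, -⟩ := exists_shrink h.isClosed_XX hDc (Uo g V U S)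
    (fun i => isOpen_mk (h.isOpen i)) (fun v hv => h.cov_o hb hS hv) B
    (fun x hx => by
      rcases hx with hx | ⟨n, rfl⟩
      · rw [hBX x hx]
        by_cases hne : x = x₀
        · subst hne
          exact Eventually.of_forall fun y _ i _ => hall i
        · filter_upwards [hnearX x hx hne, hs.usc h hb (Or.inl hx)] with y hy1 hy2 hyD
          rw [hBX y (hy1 hyD)]
          exact hy2 (Or.inl (hy1 hyD))
      · filter_upwards [hnearw n] with y hy hyD
        rw [hy hyD])
    (fun x hx hxX => by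
      rcases hx with hx | ⟨n, rfl⟩
      · exact absurd hx hxX
      · filter_upwards [hnearw n] with y hy hyD
        rw [hy hyD])
    (fun x hx => by
      rcases hx with hx | ⟨n, rfl⟩
      · rw [hBX x hx]
        exact hs.suff_o h hb hS (Or.inl hx)
      · rw [hBw n]
        filter_upwards [(hb.isOpen (e n)).mem_nhds (hwV n)] with v hv _
        exact ⟨e n, rfl, mem_Uo_V (h.sub _ hv) hv⟩)
  refine ⟨R, h1, h2, h3, fun x hx i hi => ?_, fun n i hi => ?_⟩
  · rw [← hBX x hx]
    exact h4 x (Or.inl hx) i hi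
  · have h5 := h4 (w n) (Or.inr ⟨n, rfl⟩) i hi
    rw [hBw n] at h5
    exact h5

/-- **A critical six-coloured point stays six-coloured in a connected frame.** -/
theorem Base.exists_all {ι : Type*} {g : ι → ℝ → ℂ} {pal : ι → Set (Fin 6)} {V : Fin 6 → Set ℂ}
    (hb : Base g pal V) {x₀ : ℂ} (hin : ∀ e, ∀ u ∈ Ioo (0 : ℝ) 1, g e u ≠ x₀)
    (hx : ∀ i, x₀ ∈ closure (V i)) (hblk : ∀ i, ∃ y ∈ closure (V i), dist x₀ y = 1) :
    ∃ U T, Irr U T ∧ LF3 U T ∧ (∀ x, ∀ᶠ w in 𝓝 x, ∀ i ∈ T w, Cnn U x w i) ∧ (∀ i, V i ⊆ U i) ∧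
      ∀ i, i ∈ T x₀ := by
  classical
  obtain ⟨U, h⟩ := hb.exists_gmax
  obtain ⟨K, hs⟩ := exists_seg g U
  choose S hS using exists_mks g U
  have hX : x₀ ∈ XX U := by
    intro i hi
    obtain ⟨y, hy, hd⟩ := hblk i
    exact h.free' i x₀ hi y (closure_mono (h.sub i) hy) hd
  have hall : ∀ i, i ∈ BB g pal U x₀ := fun i =>
    h.BB_end hX hin ((hb.conn i x₀ (hx i)).mono (h.sub i))
  -- the marked points
  set e : ℕ → Fin 6 := fun n => ⟨n % 6, Nat.mod_lt _ (by norm_num)⟩ with he
  have hfe : ∀ i : Fin 6, ∃ᶠ n in atTop, e n = i := by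
    intro i
    rw [frequently_atTop]
    intro N
    refine ⟨6 * N + i, by omega, ?_⟩
    apply Fin.ext
    simp only [he]
    have := i.2
    omega
  obtain ⟨w, hwV, hdec, hlim⟩ := exists_marks_seq (A := fun n => V (e n)) (x := x₀)
    (fun n => hx (e n)) (fun n hn => hX (e n) (h.sub _ hn))
  obtain ⟨R, hRo, hRS, hRc, hRB, hRw⟩ := h.exists_red_m hb hs hS hX hall hwV hdec hlim
  have hRU : ∀ i, R i ⊆ U i := fun i => (hRS i).trans (Uo_sub i)
  have hmx : Mx U := h.mx hb hRU hRc hRB
  have hXX : XX R = XX U := XX_eq hRU hRc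
  have hdR : Dense (⋃ i, R i) := dense_of_XX hmx.dense hXX
  have hfree : ∀ i, ∀ x ∈ R i, ∀ y ∈ R i, dist x y ≠ 1 := fun i x hx y hy =>
    h.free i x (hRU i hx) y (hRU i hy)
  have hT₀ : ∀ x, (Kr R univ x).Nonempty ∧ Kr R univ x ⊆ PR U R x := fun x =>
    Kr_good' hRo hfree hXX univ x (PR_ne hdR hRc x)
  obtain ⟨T, hc, hn, hs', hp⟩ := S5.H410.exists_pure (Kr R univ) (Kr_closed R univ)
    (fun x => (hT₀ x).1)
  have hTP : ∀ x, T x ⊆ PR U R x := fun x => (hs' x).trans (hT₀ x).2
  have hTB : ∀ x ∈ XX U, T x ⊆ BB g pal U x := fun x hx i hi => hRB x hx i (hTP x hi).1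
  refine ⟨U, T, ⟨hmx, fun i x hx hf => ?_, hc, hn, fun x i hi => closure_mono (hRU i) (hTP x hi).1,
    fun x hX i hi => hRU i ((hTP x hi).2 hX), hp⟩, h.lf_of hb hTB, fun x => ?_, h.sub,
    fun i => ?_⟩
  · by_cases hX : x ∈ XX U
    · have hi := hx.resolve_left (fun h1 => h1 hX)
      obtain ⟨y, hy, hxy⟩ := ((hTB x hX hi).1 hX).1
      exact absurd hxy (hf y hy)
    · exact h.max_off hX hf
  · filter_upwards [h.ctn hb hS x] with v hv i hi
    exact hv i (closure_mono (hRS i) (hTP v hi).1)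
  · -- the marked points have one colour
    have h1 : ∀ n, e n ∈ T (w n) := by
      intro n
      obtain ⟨j, hj⟩ := hn (w n)
      have h2 := hRw n j (hTP (w n) hj).1
      exact h2 ▸ hj
    by_contra hcon
    have h2 : ∀ᶠ n in atTop, w n ∈ {x | i ∈ T x}ᶜ :=
      hlim.eventually ((hc i).isOpen_compl.mem_nhds hcon)
    obtain ⟨n, h3, h4⟩ := ((hfe i).and_eventually h2).exists
    exact h4 (h3 ▸ h1 n)

end Vale.Agent.P032.H355
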