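import Vale.Agent.P032W.H355.Pl
import Vale.Agent.P032W.H355.Six6

/-!
# P032: the critical colours at a point of a six-coloured planar map

`PlMap.not_all`: if no connected frame has a six-coloured point, every point `x` of a six-coloured
planar map has a colour `i` such that no closed face of colour `i` contains `x`, or no closed face
of colour `i` meets the unit circle about `x`.
-/

open Set Filter Topology Metric

noncomputable section

namespace Vale.Agent.P032.H355

open Vale.Agent.P032.Six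

theorem PlMap.not_all (h6 : ∀ (U : Fin 6 → Set ℂ) (T : ℂ → Set (Fin 6)), Irr U T → LF3 U T →
      (∀ x, ∀ᶠ w in 𝓝 x, ∀ i ∈ T w, Cnn U x w i) → ∀ z, ¬ ∀ i, i ∈ T z)
    {ι κ : Type*} {g : ι → ℝ → EuclideanSpace ℝ (Fin 2)}
    {G : κ → Set (EuclideanSpace ℝ (Fin 2))} (h : PlMap g G) (c : κ → Fin 6)
    (hc : ∀ f f', c f = c f' → ∀ x ∈ G f, ∀ y ∈ G f', dist x y ≠ 1)
    (x : EuclideanSpace ℝ (Fin 2)) :
    ∃ i, (∀ f, c f = i → x ∉ closure (G f)) ∨
      ∀ f, c f = i → ∀ y ∈ closure (G f), dist x y ≠ 1 := by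
  classical
  by_contra hcon
  push Not at hcon
  let φ : ℂ ≃ₗᵢ[ℝ] EuclideanSpace ℝ (Fin 2) := Complex.orthonormalBasisOneI.repr
  have hP := h.toPMap φ
  have hcl : ∀ f, closure (φ ⁻¹' G f) = φ ⁻¹' closure (G f) := fun f =>
    (φ.toHomeomorph.preimage_closure (G f)).symm
  obtain ⟨pal, hb⟩ := hP.exists_base c fun f f' hff x hx y hy => by
    rw [← φ.dist_map]
    exact hc f f' hff _ hx _ hy
  have hcol : ∀ f y, y ∈ closure (G f) →
      φ.symm y ∈ closure (colV (fun f => φ ⁻¹' G f) c (c f)) := by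
    intro f y hy
    have h1 : φ.symm y ∈ closure (φ ⁻¹' G f) := by
      rw [hcl f, mem_preimage, φ.apply_symm_apply]
      exact hy
    exact closure_mono (fun v hv => mem_colV.2 ⟨f, rfl, hv⟩) h1
  -- inner points of edges have at most two colours
  have hin : ∀ e, ∀ u ∈ Ioo (0 : ℝ) 1, φ.symm (g e u) ≠ φ.symm x := by
    intro e u hu he
    have he' : g e u = x := φ.symm.injective he
    obtain ⟨a, b, hab⟩ := h.sides e
    have h1 : (univ : Set (Fin 6)) ⊆ {c a, c b} := by
      intro i _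
      obtain ⟨⟨f, hf, hx⟩, -⟩ := hcon i
      rw [← he'] at hx
      rcases (hab u hu f).1 hx with rfl | rfl
      · exact Or.inl hf.symm
      · exact Or.inr hf.symm
    have h2 := Set.ncard_le_ncard h1 (Set.toFinite _)
    have h3 := Set.ncard_insert_le (c a) {c b}
    rw [Set.ncard_univ, Nat.card_eq_fintype_card, Fintype.card_fin] at h2
    rw [Set.ncard_singleton] at h3
    omega
  have hx : ∀ i, φ.symm x ∈ closure (colV (fun f => φ ⁻¹' G f) c i) := by
    intro i
    obtain ⟨⟨f, rfl, hx⟩, -⟩ := hcon i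
    exact hcol f x hx
  have hbl : ∀ i, ∃ y ∈ closure (colV (fun f => φ ⁻¹' G f) c i), dist (φ.symm x) y = 1 := by
    intro i
    obtain ⟨-, f, rfl, y, hy, hd⟩ := hcon i
    exact ⟨φ.symm y, hcol f y hy, by rw [φ.symm.dist_map]; exact hd⟩
  obtain ⟨U, T, hI, hL, hC, -, hT⟩ := hb.exists_all hin hx hbl
  exact h6 U T hI hL hC _ hT

end Vale.Agent.P032.H355
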