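import Vale.Agent.P032W.S5.H410.MinA

/-!
# P032: local minimisation of a closed cover

`exists_min_near`: if the palettes have at most `n` colours outside a locally finite set `Z`, a closed
cover `T` can be changed near points of `Z` such that the palettes with more than `n` colours are
minimal; near such a point the new cover is contained in the old one, unless the palette of the
point became smaller.
-/

open Set Filter Topology Metric

noncomputable section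

namespace Vale.Agent.P032.H355

open Vale.Agent.P032.S5.H410

variable {ι : Type*} [Finite ι]

theorem exists_minAt {P : ℂ → Set ι} {s : Set ι} {x : ℂ} (hs : Suff P s x) :
    ∃ t, t ⊆ s ∧ Suff P t x ∧ MinAt P t x := by
  obtain ⟨t, ⟨h1, h2⟩, h3⟩ := WellFounded.has_min
    (r := fun a b : Set ι => a.ncard < b.ncard) (InvImage.wf (fun a : Set ι => a.ncard) wellFounded_lt)
    {t | t ⊆ s ∧ Suff P t x} ⟨s, Subset.rfl, hs⟩
  refine ⟨t, h1, h2, fun u hu hsu => ?_⟩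
  have h4 : ¬ u.ncard < t.ncard := h3 u ⟨hu.trans h1, hsu⟩
  exact Set.eq_of_subset_of_ncard_le hu (not_lt.1 h4) (Set.toFinite _)

theorem lf_compact {Z : Set ℂ} (h : ∀ x, ∃ t ∈ 𝓝 x, (Z ∩ t).Finite) {K : Set ℂ}
    (hK : IsCompact K) : (Z ∩ K).Finite := by
  choose t ht hfin using h
  obtain ⟨s, -, hs⟩ := hK.elim_nhds_subcover t fun x _ => ht x
  refine (s.finite_toSet.biUnion fun x _ => hfin x).subset ?_
  rintro y ⟨hy, hyK⟩
  obtain ⟨x, hx, hyx⟩ := mem_iUnion₂.1 (hs hyK)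
  exact mem_iUnion₂.2 ⟨x, hx, hy, hyx⟩

/-- **local minimisation** -/
theorem exists_min_near {P : ℂ → Set ι} {K : Set ι → ℂ → Set ι}
    (hKs : ∀ s x, K s x ⊆ s) (hKc : ∀ s i, IsClosed {x | i ∈ K s x})
    (hK : ∀ s x, (∃ i ∈ s, i ∈ P x) → (K s x).Nonempty ∧ K s x ⊆ P x)
    {Z : Set ℂ} (hZ : ∀ x, ∃ t ∈ 𝓝 x, (Z ∩ t).Finite) {n : ℕ}
    (hZn : ∀ x, x ∉ Z → (P x).ncard ≤ n)
    {T : ℂ → Set ι} (hc : ∀ i, IsClosed {x | i ∈ T x}) (hn : ∀ x, (T x).Nonempty)
    (hs : ∀ x, T x ⊆ P x) :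
    ∃ T' : ℂ → Set ι, (∀ i, IsClosed {x | i ∈ T' x}) ∧ (∀ x, (T' x).Nonempty) ∧
      (∀ x, T' x ⊆ P x) ∧ (∀ x, ∀ i ∈ T' x, ∃ᶠ w in 𝓝 x, T' w = {i}) ∧
      ∀ x, n < (T' x).ncard → MinAt P (T' x) x ∧
        ((∀ᶠ w in 𝓝 x, T' w ⊆ T w) ∨ (T' x).ncard < (T x).ncard) := by
  classical
  -- minimal palettes
  have hsel : ∀ z, ∃ s, s ⊆ T z ∧ Suff P s z ∧ MinAt P s z ∧ (MinAt P (T z) z → s = T z) := by
    intro z
    by_cases hm : MinAt P (T z) z
    · exact ⟨T z, Subset.rfl, suff_self hc hn hs z, hm, fun _ => rfl⟩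
    · obtain ⟨t, h1, h2, h3⟩ := exists_minAt (suff_self hc hn hs z)
      exact ⟨t, h1, h2, h3, fun h4 => absurd h4 hm⟩
  choose s hs1 hs2 hs3 hs4 using hsel
  -- radii
  have hr : ∀ z, ∃ r : ℝ, 0 < r ∧ r ≤ 1 ∧ (∀ y ∈ Z, dist y z ≤ r → y = z) ∧
      ∀ w, dist w z ≤ r → ∃ i ∈ s z, i ∈ P w := by
    intro z
    have h1 : ∀ᶠ y in 𝓝 z, y ∈ Z → y = z := by
      obtain ⟨t, ht, hfin⟩ := hZ z
      have h2 : ((Z ∩ t) \ {z}).Finite := hfin.subset sdiff_subset
      filter_upwards [ht, h2.isClosed.isOpen_compl.mem_nhds (show z ∈ ((Z ∩ t) \ {z})ᶜ from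
        fun h => h.2 rfl)] with y hy1 hy2 hyZ
      by_contra hne
      exact hy2 ⟨⟨hyZ, hy1⟩, hne⟩
    obtain ⟨ε, hε, hball⟩ := Metric.eventually_nhds_iff.1 (h1.and (hs2 z))
    refine ⟨min (ε / 2) 1, lt_min (half_pos hε) one_pos, min_le_right _ _, fun y hy hyz => ?_,
      fun w hw => ?_⟩
    · exact (hball (lt_of_le_of_lt (hyz.trans (min_le_left _ _)) (half_lt_self hε))).1 hy
    · exact (hball (lt_of_le_of_lt (hw.trans (min_le_left _ _)) (half_lt_self hε))).2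
  choose r hr0 hr1 hrZ hrs using hr
  set G : Set ℂ := {z | z ∈ Z ∧ s z ≠ T z} with hG
  -- local finiteness of the balls
  have hlf : LocallyFinite fun z : G => closedBall (z : ℂ) (r z) := by
    intro x
    refine ⟨ball x 1, ball_mem_nhds x one_pos, ?_⟩
    have h1 := lf_compact hZ (isCompact_closedBall x 2)
    refine Set.Finite.of_finite_image (f := (Subtype.val : G → ℂ)) (h1.subset ?_)
      Subtype.val_injective.injOn
    rintro _ ⟨z, ⟨w, hw, hwx⟩, rfl⟩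
    refine ⟨z.2.1, ?_⟩
    have h2 := dist_triangle_left (z : ℂ) x w
    have h3 := mem_ball.1 hwx
    have h4 := mem_closedBall.1 hw
    exact mem_closedBall.2 (by linarith [hr1 (z : ℂ)])
  have hcl : IsClosed (⋃ z : G, closedBall (z : ℂ) (r z)) :=
    hlf.isClosed_iUnion fun z => isClosed_closedBall
  set T₁ : ℂ → Set ι := fun w => {i | (∃ z : G, w ∈ closedBall (z : ℂ) (r z) ∧ i ∈ K (s z) w) ∨
    (i ∈ T w ∧ w ∉ ⋃ z : G, ball (z : ℂ) (r z))} with hT₁
  have hc₁ : ∀ i, IsClosed {x | i ∈ T₁ x} := by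
    intro i
    have h1 : {x | i ∈ T₁ x} = (⋃ z : G, closedBall (z : ℂ) (r z) ∩ {x | i ∈ K (s z) x}) ∪
        ({x | i ∈ T x} ∩ (⋃ z : G, ball (z : ℂ) (r z))ᶜ) := by
      ext x
      simp only [hT₁, mem_ofPred_eq, mem_union, mem_iUnion, mem_inter_iff, mem_compl_iff]
    rw [h1]
    refine IsClosed.union ?_ ?_
    · exact (hlf.subset fun z => inter_subset_left).isClosed_iUnion fun z =>
        isClosed_closedBall.inter (hKc _ i)
    · exact (hc i).inter (isOpen_iUnion fun z => isOpen_ball).isClosed_compl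
  have hn₁ : ∀ x, (T₁ x).Nonempty := by
    intro w
    by_cases hw : w ∈ ⋃ z : G, ball (z : ℂ) (r z)
    · obtain ⟨z, hz⟩ := mem_iUnion.1 hw
      obtain ⟨i, hi⟩ := (hK (s z) w (hrs z w (mem_ball.1 hz).le)).1
      exact ⟨i, Or.inl ⟨z, ball_subset_closedBall hz, hi⟩⟩
    · obtain ⟨i, hi⟩ := hn w
      exact ⟨i, Or.inr ⟨hi, hw⟩⟩
  have hs₁ : ∀ x, T₁ x ⊆ P x := by
    rintro w i (⟨z, hz, hi⟩ | ⟨hi, -⟩)
    · exact (hK (s z) w (hrs z w hz)).2 hi
    · exact hs w hi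
  have hm₁ : ∀ x, n < (T₁ x).ncard → MinAt P (T₁ x) x ∧
      ((∀ᶠ w in 𝓝 x, T₁ w ⊆ T w) ∨ (T₁ x).ncard < (T x).ncard) := by
    intro x hx
    have hxZ : x ∈ Z := by
      by_contra hxZ
      have h1 := Set.ncard_le_ncard (hs₁ x) (Set.toFinite _)
      have h2 := hZn x hxZ
      omega
    by_cases hxG : x ∈ G
    · have h1 : T₁ x ⊆ s x := by
        rintro i (⟨z, hz, hi⟩ | ⟨-, hi⟩)
        · have h2 := hrZ z x hxZ (mem_closedBall.1 hz)
          rw [← h2] at hi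
          exact hKs _ _ hi
        · exact absurd (mem_iUnion.2 ⟨(⟨x, hxG⟩ : G), mem_ball_self (hr0 x)⟩) hi
      have h3 : T₁ x = s x := hs3 x _ h1 (suff_self hc₁ hn₁ hs₁ x)
      refine ⟨by rw [h3]; exact hs3 x, Or.inr ?_⟩
      rw [h3]
      exact Set.ncard_lt_ncard ((hs1 x).ssubset_of_ne hxG.2) (Set.toFinite _)
    · have h1 : s x = T x := by
        by_contra hne
        exact hxG ⟨hxZ, hne⟩
      have h2 : x ∉ ⋃ z : G, closedBall (z : ℂ) (r z) := by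
        intro hcon
        obtain ⟨z, hz⟩ := mem_iUnion.1 hcon
        have h3 := hrZ z x hxZ (mem_closedBall.1 hz)
        exact hxG (h3 ▸ z.2)
      have h3 : ∀ w, w ∉ ⋃ z : G, closedBall (z : ℂ) (r z) → T₁ w = T w := by
        intro w hw
        ext i
        constructor
        · rintro (⟨z, hz, -⟩ | ⟨hi, -⟩)
          · exact absurd (mem_iUnion.2 ⟨z, hz⟩) hw
          · exact hi
        · intro hi
          refine Or.inr ⟨hi, fun hcon => hw ?_⟩
          obtain ⟨z, hz⟩ := mem_iUnion.1 hcon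
          exact mem_iUnion.2 ⟨z, ball_subset_closedBall hz⟩
      refine ⟨?_, Or.inl ?_⟩
      · rw [h3 x h2, ← h1]
        exact hs3 x
      · filter_upwards [hcl.isOpen_compl.mem_nhds h2] with w hw
        exact (h3 w hw).subset
  obtain ⟨T', hc', hn', hs', hp⟩ := exists_pure T₁ hc₁ hn₁
  have hsP : ∀ x, T' x ⊆ P x := fun x => (hs' x).trans (hs₁ x)
  refine ⟨T', hc', hn', hsP, hp, fun x hx => ?_⟩
  have h0 : n < (T₁ x).ncard := lt_of_lt_of_le hx (Set.ncard_le_ncard (hs' x) (Set.toFinite _))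
  obtain ⟨h1, h2⟩ := hm₁ x h0
  have h3 : T' x = T₁ x := h1 (T' x) (hs' x) (suff_self hc' hn' hsP x)
  rw [h3]
  refine ⟨h1, h2.imp_left fun h4 => ?_⟩
  filter_upwards [h4] with w hw
  exact (hs' w).trans hw

end Vale.Agent.P032.H355
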