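import Mathlib

/-!
# P032: shrinking an open cover of the complement of a closed set with prescribed boundary colours

`exists_shrink`: let `U i` be open sets which cover the complement of the closed set `C`, let `D` be a
closed set containing `C` and let `B x` (`x ∈ D`) be upper semicontinuous palettes which are
sufficient: near `x` every point off `C` lies in some `U i` with `i ∈ B x`; near the points of `D`
off `C` the palettes are constant.  Then there are open sets `R i ⊆ U i` which still cover the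
complement of `C`, and `x ∈ closure (R i)`, `x ∈ D`, only if `i ∈ B x`.
-/

open Set Filter Topology Metric

noncomputable section

namespace Vale.Agent.P032.H355

theorem exists_shrink {κ : Type*} [Finite κ] {C D : Set ℂ} (hC : IsClosed C) (hD : IsClosed D)
    (U : κ → Set ℂ)
    (hUo : ∀ i, IsOpen (U i)) (hcov : ∀ w, w ∉ C → ∃ i, w ∈ U i) (B : ℂ → Set κ)
    (husc : ∀ x ∈ D, ∀ᶠ y in 𝓝 x, y ∈ D → B y ⊆ B x)
    (hloc : ∀ x ∈ D, x ∉ C → ∀ᶠ y in 𝓝 x, y ∈ D → B y = B x)
    (hsuf : ∀ x ∈ D, ∀ᶠ w in 𝓝 x, w ∉ C → ∃ j ∈ B x, w ∈ U j) :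
    ∃ R : κ → Set ℂ, (∀ i, IsOpen (R i)) ∧ (∀ i, R i ⊆ U i) ∧ (∀ w, w ∉ C → ∃ i, w ∈ R i) ∧
      (∀ x ∈ D, ∀ i, x ∈ closure (R i) → i ∈ B x) ∧
      ∀ z ∈ D, ∀ w, w ∉ C → ∀ i ∈ B z, w ∈ U i → w ∈ R i ∨
        ∃ x ∈ D, dist x z ≤ 2 * dist w z ∧ i ∉ B x ∧ ∃ j ∈ B x, w ∈ R j := by
  classical
  -- radii
  have hr : ∀ x, ∃ r : ℝ, 0 < r ∧ (x ∈ D → (∀ y, dist y x < 4 * r → y ∈ D → B y ⊆ B x) ∧
      ∀ w, dist w x < 4 * r → w ∉ C → ∃ j ∈ B x, w ∈ U j) := by
    intro x
    by_cases hx : x ∈ D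
    · obtain ⟨s, hs, hball⟩ := Metric.eventually_nhds_iff.1 ((husc x hx).and (hsuf x hx))
      refine ⟨s / 4, by positivity, fun _ => ⟨fun y hy => (hball (by linarith)).1, fun w hw =>
        (hball (by linarith)).2⟩⟩
    · exact ⟨1, one_pos, fun h => absurd h hx⟩
  choose r hr0 hr using hr
  -- the allowed colours
  set A : ℂ → Set κ := fun w => {i | ∀ x ∈ D, dist w x < r x → i ∈ B x} with hA
  -- stability
  have hstab : ∀ w, w ∉ C → ∃ η > 0, ∀ v, dist v w < η → ∀ x ∈ D, dist v x < r x →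
      dist w x < 3 / 2 * r x ∨ (w ∈ D ∧ B x = B w) := by
    intro w hw
    by_cases hwD : w ∈ D
    · obtain ⟨τ, hτ, hball⟩ := Metric.eventually_nhds_iff.1 (hloc w hwD hw)
      refine ⟨τ / 3, by positivity, fun v hv x hx hvx => ?_⟩
      by_cases hxw : dist x w < τ
      · exact Or.inr ⟨hwD, hball hxw hx⟩
      · left
        have h1 := dist_triangle_left x w v
        have h2 := dist_triangle w v x
        rw [dist_comm v w] at hv h1
        linarith
    · rcases D.eq_empty_or_nonempty with h | h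
      · exact ⟨1, one_pos, fun v _ x hx => by rw [h] at hx; exact absurd hx (notMem_empty x)⟩
      · have hd := (hD.notMem_iff_infDist_pos h).1 hwD
        refine ⟨infDist w D / 3, by positivity, fun v hv x hx hvx => Or.inl ?_⟩
        have h1 : infDist w D ≤ dist w x := infDist_le_dist_of_mem hx
        have h2 : dist w x ≤ dist w v + dist v x := dist_triangle _ _ _
        rw [dist_comm] at hv
        linarith
  -- a colour allowed with the larger radii is in the interior
  have hint : ∀ w, w ∉ C → ∀ i, w ∈ U i → (∀ x ∈ D, dist w x < 3 / 2 * r x → i ∈ B x) →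
      w ∈ interior {w | w ∈ U i ∧ i ∈ A w} := by
    intro w hw i hwi hall
    obtain ⟨η, hη, hstab⟩ := hstab w hw
    rw [mem_interior_iff_mem_nhds]
    filter_upwards [(hUo i).mem_nhds hwi, Metric.ball_mem_nhds w hη] with v hv1 hv2
    refine ⟨hv1, fun x hx hvx => ?_⟩
    rcases hstab v hv2 x hx hvx with h1 | ⟨h1, h2⟩
    · exact hall x hx h1
    · rw [h2]
      exact hall w h1 (by rw [dist_self]; have := hr0 w; positivity)
  -- a point with minimal palette
  have hminp : ∀ w, w ∉ C → (∃ x ∈ D, dist w x < 3 / 2 * r x) → ∃ x ∈ D, dist w x < 3 / 2 * r x ∧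
      (∀ y ∈ D, dist w y < 3 / 2 * r y → B x ⊆ B y) ∧
      ∃ j ∈ B x, w ∈ interior {w | w ∈ U j ∧ j ∈ A w} := by
    intro w hw hne
    obtain ⟨x, ⟨hxC, hxr⟩, hmin⟩ := WellFounded.has_min
      (r := fun x y : ℂ => (B x).ncard < (B y).ncard)
      (InvImage.wf (fun x : ℂ => (B x).ncard) wellFounded_lt)
      {x | x ∈ D ∧ dist w x < 3 / 2 * r x} (by obtain ⟨x, h1, h2⟩ := hne; exact ⟨x, h1, h2⟩)
    have hsub : ∀ y ∈ D, dist w y < 3 / 2 * r y → B x ⊆ B y := by
      intro y hy hyr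
      have hxy := dist_triangle_left x y w
      rcases le_total (r x) (r y) with h1 | h1
      · exact ((hr y hy).1 x (by linarith [hr0 y]) hxC)
      · have h2 : B y ⊆ B x := (hr x hxC).1 y (by rw [dist_comm] at hxy; linarith [hr0 x]) hy
        have h3 : ¬ (B y).ncard < (B x).ncard := hmin y ⟨hy, hyr⟩
        rw [Set.eq_of_subset_of_ncard_le h2 (not_lt.1 h3) (Set.toFinite _)]
    obtain ⟨j, hj, hjU⟩ := (hr x hxC).2 w (by linarith [hr0 x]) hw
    exact ⟨x, hxC, hxr, hsub, j, hj, hint w hw j hjU fun y hy hyr => hsub y hy hyr hj⟩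
  refine ⟨fun i => interior {w | w ∈ U i ∧ i ∈ A w}, fun i => isOpen_interior,
    fun i w hw => (interior_subset hw).1, ?_, ?_, ?_⟩
  · intro w hw
    by_cases hne : ∃ x ∈ D, dist w x < 3 / 2 * r x
    · obtain ⟨x, -, -, -, j, -, hj⟩ := hminp w hw hne
      exact ⟨j, hj⟩
    · obtain ⟨j, hjU⟩ := hcov w hw
      exact ⟨j, hint w hw j hjU fun x hx hxr => absurd ⟨x, hx, hxr⟩ hne⟩
  · intro x hx i hi
    obtain ⟨w, hw1, hw2⟩ := mem_closure_iff_nhds.1 hi (ball x (r x)) (ball_mem_nhds x (hr0 x))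
    exact (interior_subset hw2).2 x hx (mem_ball.1 hw1)
  · intro z hz w hw i hi hwi
    by_cases hall : ∀ x ∈ D, dist w x < 3 / 2 * r x → i ∈ B x
    · exact Or.inl (hint w hw i hwi hall)
    · push Not at hall
      obtain ⟨y, hy, hyr, hiy⟩ := hall
      right
      obtain ⟨x, hx, hxr, hsub, hj⟩ := hminp w hw ⟨y, hy, hyr⟩
      have hix : i ∉ B x := fun h => hiy (hsub y hy hyr h)
      refine ⟨x, hx, ?_, hix, hj⟩
      have h1 : 4 * r x ≤ dist z x := by
        by_contra hcon
        push Not at hcon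
        exact hix ((hr x hx).1 z hcon hz hi)
      have h2 := dist_triangle z w x
      rw [dist_comm x z]
      rw [dist_comm z w] at h2
      have := hr0 x
      linarith

end Vale.Agent.P032.H355
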