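import Vale.Agent.P032W.H355.Seg
import Vale.Agent.P032W.H355.Shrink

/-!
# P032: the components which are needed

`Mks g U e S`: finitely many marks on the arc `e`.
`Uo`: the components of the `U i` which meet `V i` or contain a mark; they cover the complement of
`XX U`, they suffice at the points of `Dd` (`Seg.suff_o`), and they are locally finite
(`GMax.ctn`): near `x` every point of the closure of `Uo i` is connected to `x` inside the closure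
of `U i`.
-/

open Set Filter Topology Metric

noncomputable section

namespace Vale.Agent.P032.H355

open Vale.Agent.P032.Six

variable {k : ℕ} {ι : Type*} {g : ι → ℝ → ℂ} {pal : ι → Set (Fin k)} {V U : Fin k → Set ℂ}
  {K : ι → Set ℝ}

/-- `x` and `w` are in a connected subset of the closure of `U i` which meets `U i` -/
def Cnn (U : Fin k → Set ℂ) (x w : ℂ) (i : Fin k) : Prop :=
  ∃ Q ⊆ closure (U i), IsPreconnected Q ∧ x ∈ Q ∧ w ∈ Q ∧ (Q ∩ U i).Nonempty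

theorem Cnn.cn {x w : ℂ} {i : Fin k} (h : Cnn U x w i) : Cn U x i := by
  obtain ⟨Q, h1, h2, h3, -, h4⟩ := h
  exact ⟨Q, h1, h2, h3, h4⟩

/-- marks on the arc `e` -/
structure Mks (g : ι → ℝ → ℂ) (U : Fin k → Set ℂ) (e : ι) (S : Set ℝ) : Prop where
  fin : S.Finite
  sub : S ⊆ Icc 0 1
  zero : (0 : ℝ) ∈ S
  one : (1 : ℝ) ∈ S
  left : ∀ i, ∀ u ∈ Ioo (0 : ℝ) 1, (∀ t ∈ Ioo 0 u, g e t ∈ U i) →
    ∃ s ∈ S, s ∈ Ioo (0 : ℝ) 1 ∧ ∀ t ∈ Ioc 0 s, g e t ∈ U i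
  right : ∀ i, ∀ u ∈ Ioo (0 : ℝ) 1, (∀ t ∈ Ioo u 1, g e t ∈ U i) →
    ∃ s ∈ S, s ∈ Ioo (0 : ℝ) 1 ∧ ∀ t ∈ Ico s 1, g e t ∈ U i
  topl : ∀ u ∈ Ioo (0 : ℝ) 1, LT g U e u → u ∉ S → ∃ u' ∈ Ioo (0 : ℝ) 1, u < u' ∧ LT g U e u'
  topr : ∀ u ∈ Ioo (0 : ℝ) 1, RT g U e u → u ∉ S → ∃ u' ∈ Ioo (0 : ℝ) 1, u' < u ∧ RT g U e u'

theorem exists_mks (g : ι → ℝ → ℂ) (U : Fin k → Set ℂ) (e : ι) : ∃ S, Mks g U e S := by
  have h1 : ∀ i, ∃ s ∈ Ioo (0 : ℝ) 1, (∃ u ∈ Ioo (0 : ℝ) 1, ∀ t ∈ Ioo 0 u, g e t ∈ U i) →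
      ∀ t ∈ Ioc 0 s, g e t ∈ U i := by
    intro i
    by_cases h : ∃ u ∈ Ioo (0 : ℝ) 1, ∀ t ∈ Ioo 0 u, g e t ∈ U i
    · obtain ⟨u, hu, hi⟩ := h
      exact ⟨u / 2, ⟨by linarith [hu.1], by linarith [hu.2]⟩, fun _ t ht =>
        hi t ⟨ht.1, by linarith [ht.2, hu.1]⟩⟩
    · exact ⟨1 / 2, by norm_num, fun h' => absurd h' h⟩
  have h2 : ∀ i, ∃ s ∈ Ioo (0 : ℝ) 1, (∃ u ∈ Ioo (0 : ℝ) 1, ∀ t ∈ Ioo u 1, g e t ∈ U i) →
      ∀ t ∈ Ico s 1, g e t ∈ U i := by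
    intro i
    by_cases h : ∃ u ∈ Ioo (0 : ℝ) 1, ∀ t ∈ Ioo u 1, g e t ∈ U i
    · obtain ⟨u, hu, hi⟩ := h
      exact ⟨(u + 1) / 2, ⟨by linarith [hu.1], by linarith [hu.2]⟩, fun _ t ht =>
        hi t ⟨by linarith [ht.1, hu.2], ht.2⟩⟩
    · exact ⟨1 / 2, by norm_num, fun h' => absurd h' h⟩
  choose a ha ha1 using h1
  choose b hb hb1 using h2
  set A : Set ℝ := {u | u ∈ Ioo (0 : ℝ) 1 ∧ LT g U e u ∧ ∀ u' ∈ Ioo (0 : ℝ) 1, u < u' →
    ¬ LT g U e u'} with hA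
  set B : Set ℝ := {u | u ∈ Ioo (0 : ℝ) 1 ∧ RT g U e u ∧ ∀ u' ∈ Ioo (0 : ℝ) 1, u' < u →
    ¬ RT g U e u'} with hB
  have hAs : A.Subsingleton := by
    rintro u ⟨hu, h3, h4⟩ v ⟨hv, h5, h6⟩
    rcases lt_trichotomy u v with h | h | h
    · exact absurd h5 (h4 v hv h)
    · exact h
    · exact absurd h3 (h6 u hu h)
  have hBs : B.Subsingleton := by
    rintro u ⟨hu, h3, h4⟩ v ⟨hv, h5, h6⟩
    rcases lt_trichotomy u v with h | h | h
    · exact absurd h3 (h6 u hu h)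
    · exact h
    · exact absurd h5 (h4 v hv h)
  refine ⟨{0, 1} ∪ range a ∪ range b ∪ A ∪ B, ?_, ?_, ?_, ?_, fun i u hu hi => ?_,
    fun i u hu hi => ?_, fun u hu hL hS => ?_, fun u hu hL hS => ?_⟩
  · exact ((((Set.toFinite _).union (Set.finite_range a)).union (Set.finite_range b)).union
      hAs.finite).union hBs.finite
  · rintro u (((((h | h) | ⟨i, rfl⟩) | ⟨i, rfl⟩) | h) | h)
    · rw [h]; exact left_mem_Icc.2 zero_le_one
    · rw [mem_singleton_iff.1 h]; exact right_mem_Icc.2 zero_le_one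
    · exact Ioo_subset_Icc_self (ha i)
    · exact Ioo_subset_Icc_self (hb i)
    · exact Ioo_subset_Icc_self h.1
    · exact Ioo_subset_Icc_self h.1
  · simp
  · simp
  · exact ⟨a i, by simp, ha i, ha1 i ⟨u, hu, hi⟩⟩
  · exact ⟨b i, by simp, hb i, hb1 i ⟨u, hu, hi⟩⟩
  · by_contra hcon
    push Not at hcon
    exact hS (Or.inl (Or.inr ⟨hu, hL, hcon⟩))
  · by_contra hcon
    push Not at hcon
    exact hS (Or.inr ⟨hu, hL, hcon⟩)

/-- the components which are needed -/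
def Uo (g : ι → ℝ → ℂ) (V U : Fin k → Set ℂ) (S : ι → Set ℝ) (i : Fin k) : Set ℂ :=
  mk (U i) (V i) (⋃ e, g e '' S e)

variable {S : ι → Set ℝ}

theorem Uo_sub (i : Fin k) : Uo g V U S i ⊆ U i := mk_sub _ _ _

theorem mem_Uo_V {i : Fin k} {w : ℂ} (hw : w ∈ U i) (hwV : w ∈ V i) : w ∈ Uo g V U S i :=
  mem_mk_of isPreconnected_singleton (by simpa using hw) rfl rfl (Or.inl hwV)

theorem mem_Uo_M {i : Fin k} {e : ι} {t : ℝ} (ht : t ∈ S e) (hw : g e t ∈ U i) :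
    g e t ∈ Uo g V U S i :=
  mem_mk_of isPreconnected_singleton (by simpa using hw) rfl rfl
    (Or.inr (mem_iUnion.2 ⟨e, t, ht, rfl⟩))

namespace GMax

theorem mem_Uo_cl (h : GMax g pal V U) {i : Fin k} {w : ℂ} (hw : w ∈ U i)
    (hwV : w ∈ closure (V i)) : w ∈ Uo g V U S i := by
  obtain ⟨p, hp, hpV⟩ := mem_closure_iff_nhds.1 hwV _
    (((h.isOpen i).connectedComponentIn (x := w)).mem_nhds (mem_connectedComponentIn hw))
  exact ⟨hw, p, hp, Or.inl hpV⟩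

theorem mem_Uo_left (h : GMax g pal V U) (hS : ∀ e, Mks g U e (S e)) {e : ι} {u : ℝ}
    (hu : u ∈ Ioo (0 : ℝ) 1) {l : Fin k} (hl : ∀ t ∈ Ioo 0 u, g e t ∈ U l) {t : ℝ}
    (ht : t ∈ Ioo 0 u) : g e t ∈ Uo g V U S l := by
  obtain ⟨s, hs, hs1, hsU⟩ := (hS e).left l u hu hl
  have hm : Max.max t s ≤ 1 := max_le (ht.2.trans hu.2).le hs1.2.le
  refine mem_mk_of (Q := g e '' Ioc 0 (Max.max t s)) (p := g e s) ?_ ?_
    ⟨t, ⟨ht.1, le_max_left _ _⟩, rfl⟩ ⟨s, ⟨hs1.1, le_max_right _ _⟩, rfl⟩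
    (Or.inr (mem_iUnion.2 ⟨e, s, hs, rfl⟩))
  · exact isPreconnected_Ioc.image _ ((h.arcs.cont e).mono fun v hv => ⟨hv.1.le, hv.2.trans hm⟩)
  · rintro _ ⟨v, hv, rfl⟩
    rcases le_max_iff.1 hv.2 with h1 | h1
    · exact hl v ⟨hv.1, lt_of_le_of_lt h1 ht.2⟩
    · exact hsU v ⟨hv.1, h1⟩

theorem mem_Uo_right (h : GMax g pal V U) (hS : ∀ e, Mks g U e (S e)) {e : ι} {u : ℝ}
    (hu : u ∈ Ioo (0 : ℝ) 1) {l : Fin k} (hl : ∀ t ∈ Ioo u 1, g e t ∈ U l) {t : ℝ}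
    (ht : t ∈ Ioo u 1) : g e t ∈ Uo g V U S l := by
  obtain ⟨s, hs, hs1, hsU⟩ := (hS e).right l u hu hl
  have hm : 0 ≤ Min.min t s := le_min (hu.1.trans ht.1).le hs1.1.le
  refine mem_mk_of (Q := g e '' Ico (Min.min t s) 1) (p := g e s) ?_ ?_
    ⟨t, ⟨min_le_left _ _, ht.2⟩, rfl⟩ ⟨s, ⟨min_le_right _ _, hs1.2⟩, rfl⟩
    (Or.inr (mem_iUnion.2 ⟨e, s, hs, rfl⟩))
  · exact isPreconnected_Ico.image _ ((h.arcs.cont e).mono fun v hv => ⟨hm.trans hv.1, hv.2.le⟩)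
  · rintro _ ⟨v, hv, rfl⟩
    rcases min_le_iff.1 hv.1 with h1 | h1
    · exact hl v ⟨lt_of_lt_of_le ht.1 h1, hv.2⟩
    · exact hsU v ⟨h1, hv.2⟩

/-- the components which are needed cover -/
theorem cov_o (h : GMax g pal V U) (hb : Base g pal V) (hS : ∀ e, Mks g U e (S e)) {w : ℂ}
    (hw : w ∉ XX U) : ∃ i, w ∈ Uo g V U S i := by
  have hw' : ∃ i, w ∈ U i := by
    have hw : ¬ ∀ i, w ∉ U i := hw
    push Not at hw
    exact hw
  by_cases harc : ∃ e, w ∈ g e '' Icc 0 1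
  · obtain ⟨e, t, ht, rfl⟩ := harc
    by_cases htS : t ∈ S e
    · obtain ⟨i, hi⟩ := hw'
      exact ⟨i, mem_Uo_M htS hi⟩
    have ht' : t ∈ Ioo (0 : ℝ) 1 := by
      refine ⟨lt_of_le_of_ne ht.1 ?_, lt_of_le_of_ne ht.2 ?_⟩
      · rintro rfl
        exact htS (hS e).zero
      · rintro rfl
        exact htS (hS e).one
    rcases h.good e t ht' with h1 | ⟨i, hi, h1⟩ | h1 | h1
    · exact absurd h1 hw
    · exact ⟨i, h.mem_Uo_cl h1 (hb.palcl e t ht' i hi)⟩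
    · obtain ⟨u', hu', hlt, l, hl⟩ := (hS e).topl t ht' h1 htS
      exact ⟨l, h.mem_Uo_left hS hu' hl ⟨ht'.1, hlt⟩⟩
    · obtain ⟨u', hu', hlt, l, hl⟩ := (hS e).topr t ht' h1 htS
      exact ⟨l, h.mem_Uo_right hS hu' hl ⟨hlt, ht'.2⟩⟩
  · push Not at harc
    obtain ⟨i, hi⟩ := hb.off w harc
    exact ⟨i, mem_Uo_V (h.sub i hi) hi⟩

/-- at an inner point of an arc the allowed colours suffice -/
theorem suff_inner_o (h : GMax g pal V U) (hb : Base g pal V) (hS : ∀ e, Mks g U e (S e))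
    {e : ι} {u : ℝ} (hu : u ∈ Ioo (0 : ℝ) 1) (hP : Pt g U e u) :
    ∀ᶠ w in 𝓝 (g e u), w ∉ XX U → ∃ j ∈ cc g pal U e u, w ∈ Uo g V U S j := by
  obtain ⟨ε, hε, hε1⟩ := hP.near hu
  have hpal : ∀ t ∈ Ioo (0 : ℝ) 1, (∃ i ∈ pal e, g e t ∈ U i) →
      ∃ j ∈ cc g pal U e u, g e t ∈ Uo g V U S j := by
    rintro t ht ⟨i, hi, h1⟩
    exact ⟨i, Or.inl hi, h.mem_Uo_cl h1 (hb.palcl e t ht i hi)⟩
  filter_upwards [hb.near e u hu, h.arcs.param hu hε] with w hw1 hw2 hwX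
  rcases hw1 with ⟨t, ht, rfl⟩ | ⟨i, hi, hwi⟩
  · obtain ⟨ht', h4⟩ := hε1 t (hw2 t ht rfl)
    rcases h4 with rfl | ⟨hL, hR⟩ | ⟨htu, hL⟩ | ⟨htu, hR⟩
    · rcases hP with hX | ⟨hL, hR⟩
      · exact absurd hX hwX
      · rcases h.good e t ht' with h5 | h5 | h5 | h5
        · exact absurd h5 hwX
        · exact hpal t ht' h5
        · exact absurd h5 hL
        · exact absurd h5 hR
    · rcases h.good e t ht' with h5 | h5 | h5 | h5
      · exact absurd h5 hwX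
      · exact hpal t ht' h5
      · exact absurd h5 hL
      · exact absurd h5 hR
    · exact ⟨hL.choose, Or.inr (Or.inl ⟨hL, rfl⟩),
        h.mem_Uo_left hS hu hL.choose_spec ⟨ht'.1, htu⟩⟩
    · exact ⟨hR.choose, Or.inr (Or.inr ⟨hR, rfl⟩),
        h.mem_Uo_right hS hu hR.choose_spec ⟨htu, ht'.2⟩⟩
  · exact ⟨i, Or.inl hi, mem_Uo_V (h.sub i hwi) hwi⟩

theorem marks_fin (h : GMax g pal V U) (hS : ∀ e, Mks g U e (S e)) (x : ℂ) (r : ℝ) :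
    ((⋃ e, g e '' S e) ∩ ball x r).Finite := by
  have hfin := h.arcs.lf.finite_nonempty_inter_compact (isCompact_closedBall x r)
  refine (hfin.biUnion fun e _ => ((hS e).fin.image (g e))).subset ?_
  rintro y ⟨hy, hyr⟩
  obtain ⟨e, t, ht, rfl⟩ := mem_iUnion.1 hy
  exact mem_iUnion₂.2 ⟨e, ⟨g e t, ⟨t, (hS e).sub ht, rfl⟩, ball_subset_closedBall hyr⟩,
    t, ht, rfl⟩

/-- **local finiteness** -/
theorem ctn (h : GMax g pal V U) (hb : Base g pal V) (hS : ∀ e, Mks g U e (S e)) (x : ℂ) :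
    ∀ᶠ w in 𝓝 x, ∀ i, w ∈ closure (Uo g V U S i) → Cnn U x w i := by
  rw [eventually_all]
  intro i
  filter_upwards [comp_lf (h.free i) (h.sub i) (hb.fin i) (h.marks_fin hS) x] with w hw hwc
  obtain ⟨C, hCU, hC, hCne, hwC, hxC⟩ := hw hwc
  refine ⟨insert x (insert w C), ?_, ?_, mem_insert _ _, mem_insert_of_mem _ (mem_insert _ _), ?_⟩
  · refine insert_subset (closure_mono hCU hxC) (insert_subset (closure_mono hCU hwC) ?_)
    exact hCU.trans subset_closure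
  · exact hC.subset_closure ((subset_insert _ _).trans (subset_insert _ _))
      (insert_subset hxC (insert_subset hwC subset_closure))
  · obtain ⟨y, hy⟩ := hCne
    exact ⟨y, Or.inr (Or.inr hy), hCU hy⟩

end GMax

/-- the allowed colours suffice -/
theorem Seg.suff_o (hs : Seg g U K) (h : GMax g pal V U) (hb : Base g pal V)
    (hS : ∀ e, Mks g U e (S e)) {x : ℂ} (hx : x ∈ Dd g U K) :
    ∀ᶠ w in 𝓝 x, w ∉ XX U → ∃ j ∈ BB g pal U x, w ∈ Uo g V U S j := by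
  by_cases hin : ∃ e, ∃ u ∈ Ioo (0 : ℝ) 1, g e u = x
  · obtain ⟨e, u, hu, rfl⟩ := hin
    rw [h.BB_inner hb hu]
    exact h.suff_inner_o hb hS hu (hs.pt h.arcs hu hx)
  · push Not at hin
    have hX := hs.end_XX h hx hin
    filter_upwards [h.ctn hb hS x] with w hw hwX
    obtain ⟨j, hj⟩ := h.cov_o hb hS hwX
    exact ⟨j, h.BB_end hX hin (hw j (subset_closure hj)).cn, hj⟩

/-- the reduced family below the components which are needed -/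
theorem GMax.exists_red_o (h : GMax g pal V U) (hb : Base g pal V) (hs : Seg g U K)
    (hS : ∀ e, Mks g U e (S e)) :
    ∃ R : Fin k → Set ℂ, (∀ i, IsOpen (R i)) ∧ (∀ i, R i ⊆ Uo g V U S i) ∧
      (∀ w, w ∉ XX U → ∃ i, w ∈ R i) ∧
      ∀ x ∈ Dd g U K, ∀ i, x ∈ closure (R i) → i ∈ BB g pal U x := by
  obtain ⟨R, h1, h2, h3, h4, -⟩ := exists_shrink h.isClosed_XX (hs.isClosed_Dd h) (Uo g V U S)
    (fun i => isOpen_mk (h.isOpen i)) (fun w hw => h.cov_o hb hS hw) (BB g pal U)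
    (fun _ hx => hs.usc h hb hx) (fun _ hx hX => hs.loc h hb hx hX)
    (fun _ hx => hs.suff_o h hb hS hx)
  exact ⟨R, h1, h2, h3, h4⟩

end Vale.Agent.P032.H355
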