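import Vale.Agent.P032W.Six.Max

/-!
# P032: maximal families above a map with Jordan arcs as edges

`Arcs g`: a locally finite family of arcs `g e : [0,1] → ℂ` which meet only in end points.
`Good g pal U`: along every arc every inner point is in `XX U`, or in a set `U i` with `i ∈ pal e`,
or the part of the arc before (after) it is contained in one of the sets `U l`.
`exists_good`: a maximal family with this property.
-/

open Set Filter Topology Metric

noncomputable section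

namespace Vale.Agent.P032.H355

open Vale.Agent.P032.Six

variable {k : ℕ} {ι : Type*}

/-- a locally finite family of arcs which meet only in end points -/
structure Arcs (g : ι → ℝ → ℂ) : Prop where
  cont : ∀ e, ContinuousOn (g e) (Icc 0 1)
  lf : LocallyFinite fun e => g e '' Icc 0 1
  inj : ∀ e e' u u', u ∈ Ioo (0 : ℝ) 1 → u' ∈ Icc (0 : ℝ) 1 → g e u = g e' u' → e = e' ∧ u = u'

/-- the condition along the arcs -/
def Good (g : ι → ℝ → ℂ) (pal : ι → Set (Fin k)) (U : Fin k → Set ℂ) : Prop :=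
  ∀ e, ∀ u ∈ Ioo (0 : ℝ) 1, g e u ∈ XX U ∨ (∃ i ∈ pal e, g e u ∈ U i) ∨
    (∃ l, ∀ t ∈ Ioo 0 u, g e t ∈ U l) ∨ ∃ l, ∀ t ∈ Ioo u 1, g e t ∈ U l

/-- the families -/
def Fam (g : ι → ℝ → ℂ) (pal : ι → Set (Fin k)) (V : Fin k → Set ℂ) : Set (Fin k → Set ℂ) :=
  {U | (∀ i, IsOpen (U i)) ∧ (∀ i, V i ⊆ U i) ∧ (∀ i, ∀ x ∈ U i, ∀ y ∈ U i, dist x y ≠ 1) ∧
    Good g pal U}

/-- a maximal family -/
structure GMax (g : ι → ℝ → ℂ) (pal : ι → Set (Fin k)) (V U : Fin k → Set ℂ) : Prop where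
  arcs : Arcs g
  isOpen : ∀ i, IsOpen (U i)
  sub : ∀ i, V i ⊆ U i
  free : ∀ i, ∀ x ∈ U i, ∀ y ∈ U i, dist x y ≠ 1
  good : Good g pal U
  max : ∀ i, ∀ N : Set ℂ, IsOpen N → (∀ x ∈ U i ∪ N, ∀ y ∈ U i ∪ N, dist x y ≠ 1) →
    Good g pal (Function.update U i (U i ∪ N)) → N ⊆ U i

theorem exists_good {g : ι → ℝ → ℂ} {pal : ι → Set (Fin k)} {V : Fin k → Set ℂ} (hg : Arcs g)
    (hV : V ∈ Fam g pal V) : ∃ U, GMax g pal V U := by
  classical
  obtain ⟨U, hVU, hU⟩ := zorn_le_nonempty₀ (Fam g pal V) (fun c hc hchain U₀ hU₀ => by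
    refine ⟨fun i => ⋃ U ∈ c, U i, ⟨fun i => isOpen_biUnion fun U hU => (hc hU).1 i, fun i => ?_,
      ?_, ?_⟩, fun U hU i => subset_biUnion_of_mem (u := fun U : Fin k → Set ℂ => U i) hU⟩
    · exact ((hc hU₀).2.1 i).trans (subset_biUnion_of_mem (u := fun U : Fin k → Set ℂ => U i) hU₀)
    · intro i x hx y hy
      obtain ⟨U₁, h1, hx1⟩ := mem_iUnion₂.1 hx
      obtain ⟨U₂, h2, hy2⟩ := mem_iUnion₂.1 hy
      rcases hchain.total h1 h2 with hle | hle
      · exact (hc h2).2.2.1 i x (hle i hx1) y hy2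
      · exact (hc h1).2.2.1 i x hx1 y (hle i hy2)
    · intro e u hu
      by_cases hX : g e u ∈ XX fun i => ⋃ U ∈ c, U i
      · exact Or.inl hX
      · right
        have hX : ¬ ∀ i, g e u ∉ ⋃ U ∈ c, U i := hX
        push Not at hX
        obtain ⟨i, hi⟩ := hX
        obtain ⟨U₁, h1, hx1⟩ := mem_iUnion₂.1 hi
        have hmono : ∀ l, U₁ l ⊆ ⋃ U ∈ c, U l := fun l =>
          subset_biUnion_of_mem (u := fun U : Fin k → Set ℂ => U l) h1
        rcases (hc h1).2.2.2 e u hu with h | ⟨j, hj, h⟩ | ⟨l, h⟩ | ⟨l, h⟩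
        · exact absurd hx1 (h i)
        · exact Or.inl ⟨j, hj, hmono j h⟩
        · exact Or.inr (Or.inl ⟨l, fun t ht => hmono l (h t ht)⟩)
        · exact Or.inr (Or.inr ⟨l, fun t ht => hmono l (h t ht)⟩)) V hV
  obtain ⟨h1, h2, h3, h4⟩ := hU.prop
  refine ⟨U, hg, h1, h2, h3, h4, fun i N hN hf hG => ?_⟩
  have hle : U ≤ Function.update U i (U i ∪ N) := by
    intro j
    rcases eq_or_ne j i with rfl | hji
    · rw [Function.update_self]; exact subset_union_left
    · rw [Function.update_of_ne hji]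
  have hmem : Function.update U i (U i ∪ N) ∈ Fam g pal V := by
    refine ⟨fun j => ?_, fun j => (h2 j).trans (hle j), fun j => ?_, hG⟩
    · rcases eq_or_ne j i with rfl | hji
      · rw [Function.update_self]; exact (h1 _).union hN
      · rw [Function.update_of_ne hji]; exact h1 j
    · rcases eq_or_ne j i with rfl | hji
      · rw [Function.update_self]; exact hf
      · rw [Function.update_of_ne hji]; exact h3 j
  have h5 := hU.le_of_ge hmem hle i
  rw [Function.update_self] at h5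
  exact fun x hx => h5 (Or.inr hx)

namespace GMax

variable {g : ι → ℝ → ℂ} {pal : ι → Set (Fin k)} {V U : Fin k → Set ℂ}

theorem free' (h : GMax g pal V U) (i : Fin k) : ∀ x ∈ U i, ∀ y ∈ closure (U i), dist x y ≠ 1 :=
  free_closure (h.isOpen i) (h.free i)

theorem isClosed_XX (h : GMax g pal V U) : IsClosed (XX U) := by
  have : XX U = ⋂ i, (U i)ᶜ := by ext x; simp [XX]
  rw [this]
  exact isClosed_iInter fun i => (h.isOpen i).isClosed_compl

theorem update_mono (i : Fin k) (N : Set ℂ) (j : Fin k) :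
    U j ⊆ Function.update U i (U i ∪ N) j := by
  classical
  rcases eq_or_ne j i with rfl | hji
  · rw [Function.update_self]; exact subset_union_left
  · rw [Function.update_of_ne hji]

/-- **(A)** full maximality off `XX U` -/
theorem max_off (h : GMax g pal V U) {i : Fin k} {x : ℂ} (hx : x ∉ XX U)
    (hf : ∀ y ∈ closure (U i), dist x y ≠ 1) : x ∈ U i := by
  classical
  obtain ⟨r, hr, hfree⟩ := free_union_ball (h.free i) hf
  have hsub : U i ∪ (ball x r ∩ (XX U)ᶜ) ⊆ U i ∪ ball x r :=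
    union_subset_union_right _ inter_subset_left
  refine h.max i (ball x r ∩ (XX U)ᶜ) (isOpen_ball.inter h.isClosed_XX.isOpen_compl)
    (fun p hp q hq => hfree p (hsub hp) q (hsub hq)) ?_ ⟨mem_ball_self hr, hx⟩
  intro e u hu
  rcases h.good e u hu with h1 | ⟨j, hj, h1⟩ | ⟨l, h1⟩ | ⟨l, h1⟩
  · left
    intro j
    rcases eq_or_ne j i with rfl | hji
    · rw [Function.update_self]
      rintro (h2 | h2)
      · exact h1 j h2
      · exact h2.2 h1
    · rw [Function.update_of_ne hji]; exact h1 j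
  · exact Or.inr (Or.inl ⟨j, hj, update_mono _ _ _ h1⟩)
  · exact Or.inr (Or.inr (Or.inl ⟨l, fun t ht => update_mono _ _ _ (h1 t ht)⟩))
  · exact Or.inr (Or.inr (Or.inr ⟨l, fun t ht => update_mono _ _ _ (h1 t ht)⟩))

/-- **enlarging** by an open set `O`: on the arc `e` only the parameters outside the compact
set `K e` are added -/
theorem enlargeO (h : GMax g pal V U) {i : Fin k} {O : Set ℂ} (hO : IsOpen O)
    (hfree : ∀ p ∈ U i ∪ O, ∀ q ∈ U i ∪ O, dist p q ≠ 1) (K : ι → Set ℝ)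
    (hK : ∀ e, IsCompact (K e)) (hK1 : ∀ e, K e ⊆ Icc 0 1)
    (hG : ∀ e, ∀ u ∈ Ioo (0 : ℝ) 1, u ∉ K e → g e u ∈ O → i ∈ pal e ∨
      (∀ t ∈ Ioo 0 u, g e t ∈ U i ∨ (t ∉ K e ∧ g e t ∈ O)) ∨
      ∀ t ∈ Ioo u 1, g e t ∈ U i ∨ (t ∉ K e ∧ g e t ∈ O)) :
    O ∩ (⋃ e, g e '' K e)ᶜ ⊆ U i := by
  classical
  have hcl : IsClosed (⋃ e, g e '' K e) :=
    (h.arcs.lf.subset fun e => image_mono (hK1 e)).isClosed_iUnion fun e =>
      ((hK e).image_of_continuousOn ((h.arcs.cont e).mono (hK1 e))).isClosed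
  have hmem : ∀ e, ∀ u ∈ Ioo (0 : ℝ) 1, g e u ∈ (⋃ e, g e '' K e) → u ∈ K e := by
    intro e u hu hgu
    obtain ⟨e', u', hu', he⟩ := mem_iUnion.1 hgu
    obtain ⟨rfl, rfl⟩ := h.arcs.inj e e' u u' hu (hK1 e' hu') he.symm
    exact hu'
  set N : Set ℂ := O ∩ (⋃ e, g e '' K e)ᶜ with hN
  have hNo : IsOpen N := hO.inter hcl.isOpen_compl
  have hNin : ∀ e, ∀ u ∈ Ioo (0 : ℝ) 1, u ∉ K e → g e u ∈ O → g e u ∈ N :=
    fun e u hu huK hd => ⟨hd, fun hcon => huK (hmem e u hu hcon)⟩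
  have hsub : U i ∪ N ⊆ U i ∪ O := union_subset_union_right _ inter_subset_left
  refine h.max i N hNo (fun p hp q hq => hfree p (hsub hp) q (hsub hq)) ?_
  intro e u hu
  have hself : Function.update U i (U i ∪ N) i = U i ∪ N := Function.update_self ..
  rcases h.good e u hu with h1 | ⟨j, hj, h1⟩ | ⟨l, h1⟩ | ⟨l, h1⟩
  · by_cases hgN : g e u ∈ N
    · have huK : u ∉ K e := fun hcon => hgN.2 (mem_iUnion.2 ⟨e, u, hcon, rfl⟩)
      rcases hG e u hu huK hgN.1 with h2 | h2 | h2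
      · exact Or.inr (Or.inl ⟨i, h2, by rw [hself]; exact Or.inr hgN⟩)
      · refine Or.inr (Or.inr (Or.inl ⟨i, fun t ht => ?_⟩))
        rw [hself]
        rcases h2 t ht with h3 | h3
        · exact Or.inl h3
        · exact Or.inr (hNin e t ⟨ht.1, ht.2.trans hu.2⟩ h3.1 h3.2)
      · refine Or.inr (Or.inr (Or.inr ⟨i, fun t ht => ?_⟩))
        rw [hself]
        rcases h2 t ht with h3 | h3
        · exact Or.inl h3
        · exact Or.inr (hNin e t ⟨hu.1.trans ht.1, ht.2⟩ h3.1 h3.2)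
    · left
      intro j
      rcases eq_or_ne j i with rfl | hji
      · rw [hself]
        exact fun h2 => h2.elim (h1 j) hgN
      · rw [Function.update_of_ne hji]; exact h1 j
  · exact Or.inr (Or.inl ⟨j, hj, update_mono _ _ _ h1⟩)
  · exact Or.inr (Or.inr (Or.inl ⟨l, fun t ht => update_mono _ _ _ (h1 t ht)⟩))
  · exact Or.inr (Or.inr (Or.inr ⟨l, fun t ht => update_mono _ _ _ (h1 t ht)⟩))

/-- **enlarging** near `x` -/
theorem enlarge (h : GMax g pal V U) {i : Fin k} {x : ℂ} {r : ℝ} (hr : 0 < r)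
    (hfree : ∀ p ∈ U i ∪ ball x r, ∀ q ∈ U i ∪ ball x r, dist p q ≠ 1) (K : ι → Set ℝ)
    (hK : ∀ e, IsCompact (K e)) (hK1 : ∀ e, K e ⊆ Icc 0 1) (hxK : ∀ e, x ∉ g e '' K e)
    (hG : ∀ e, ∀ u ∈ Ioo (0 : ℝ) 1, u ∉ K e → dist (g e u) x < r → i ∈ pal e ∨
      (∀ t ∈ Ioo 0 u, g e t ∈ U i ∨ (t ∉ K e ∧ dist (g e t) x < r)) ∨
      ∀ t ∈ Ioo u 1, g e t ∈ U i ∨ (t ∉ K e ∧ dist (g e t) x < r)) : x ∈ U i := by
  refine h.enlargeO isOpen_ball hfree K hK hK1 hG ⟨mem_ball_self hr, fun hcon => ?_⟩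
  obtain ⟨e, he⟩ := mem_iUnion.1 hcon
  exact hxK e he

/-- **(B)** the colours of `pal e` are blocked at the points of `XX U` on the arc `e` -/
theorem blk_pal (h : GMax g pal V U) {e : ι} {u : ℝ} (hu : u ∈ Ioo (0 : ℝ) 1)
    (hX : g e u ∈ XX U) {i : Fin k} (hi : i ∈ pal e) :
    ∃ y ∈ closure (U i), dist (g e u) y = 1 := by
  classical
  by_contra hcon
  push Not at hcon
  obtain ⟨r, hr, hfree⟩ := free_union_ball (h.free i) hcon
  refine hX i (h.enlarge hr hfree (fun e' => if e' = e then ∅ else Icc 0 1) (fun e' => ?_)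
    (fun e' => ?_) (fun e' => ?_) (fun e' u' hu' hK' _ => ?_))
  · split_ifs
    · exact isCompact_empty
    · exact isCompact_Icc
  · split_ifs
    · exact empty_subset _
    · exact Subset.rfl
  · split_ifs with hee
    · simp
    · rintro ⟨t, ht, hgt⟩
      exact hee (h.arcs.inj e e' u t hu ht hgt.symm).1.symm
  · left
    by_cases hee : e' = e
    · rw [hee]; exact hi
    · rw [if_neg hee] at hK'
      exact absurd (Ioo_subset_Icc_self hu') hK'

theorem near_param (h : Arcs g) {e : ι} {u : ℝ} (hu : u ∈ Icc (0 : ℝ) 1) {r : ℝ} (hr : 0 < r) :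
    ∃ ε > 0, ∀ t ∈ Icc (0 : ℝ) 1, |t - u| < ε → dist (g e t) (g e u) < r := by
  obtain ⟨ε, hε, hball⟩ := Metric.continuousWithinAt_iff.1 (h.cont e u hu) r hr
  exact ⟨ε, hε, fun t ht htu => hball ht (by rw [Real.dist_eq]; exact htu)⟩

/-- **(C)** the colour of an initial part of the arc is blocked at its end -/
theorem blk_left (h : GMax g pal V U) {e : ι} {u : ℝ} (hu : u ∈ Ioo (0 : ℝ) 1)
    (hX : g e u ∈ XX U) {i : Fin k} (hi : ∀ t ∈ Ioo 0 u, g e t ∈ U i) :
    ∃ y ∈ closure (U i), dist (g e u) y = 1 := by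
  classical
  by_contra hcon
  push Not at hcon
  obtain ⟨r, hr, hfree⟩ := free_union_ball (h.free i) hcon
  obtain ⟨ε, hε, hball⟩ := near_param h.arcs (Ioo_subset_Icc_self hu) hr (e := e)
  refine hX i (h.enlarge hr hfree
    (fun e' => if e' = e then Icc 0 1 ∩ (Ioo (u - ε) (u + ε))ᶜ else Icc 0 1) (fun e' => ?_)
    (fun e' => ?_) (fun e' => ?_) (fun e' u' hu' hK' _ => ?_))
  · split_ifs
    · exact isCompact_Icc.inter_right isOpen_Ioo.isClosed_compl
    · exact isCompact_Icc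
  · split_ifs
    · exact inter_subset_left
    · exact Subset.rfl
  · split_ifs with hee
    · subst hee
      rintro ⟨t, ht, hgt⟩
      have h1 := (h.arcs.inj e' e' u t hu ht.1 hgt.symm).2
      exact ht.2 (by rw [← h1]; exact ⟨by linarith, by linarith⟩)
    · rintro ⟨t, ht, hgt⟩
      exact hee (h.arcs.inj e e' u t hu ht hgt.symm).1.symm
  · by_cases hee : e' = e
    · subst hee
      rw [if_pos rfl] at hK' ⊢
      have hu2 : u' ∈ Ioo (u - ε) (u + ε) := by
        by_contra h1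
        exact hK' ⟨Ioo_subset_Icc_self hu', h1⟩
      right; left
      intro t ht
      by_cases htu : t < u
      · exact Or.inl (hi t ⟨ht.1, htu⟩)
      · right
        push Not at htu
        have ht1 : t ∈ Ioo (u - ε) (u + ε) := ⟨by linarith, ht.2.trans hu2.2⟩
        exact ⟨fun hc => hc.2 ht1, hball t ⟨ht.1.le, (ht.2.trans hu'.2).le⟩
          (abs_lt.2 ⟨by linarith [ht1.1], by linarith [ht1.2]⟩)⟩
    · rw [if_neg hee] at hK'
      exact absurd (Ioo_subset_Icc_self hu') hK'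

/-- **(C')** the colour of a final part of the arc is blocked at its end -/
theorem blk_right (h : GMax g pal V U) {e : ι} {u : ℝ} (hu : u ∈ Ioo (0 : ℝ) 1)
    (hX : g e u ∈ XX U) {i : Fin k} (hi : ∀ t ∈ Ioo u 1, g e t ∈ U i) :
    ∃ y ∈ closure (U i), dist (g e u) y = 1 := by
  classical
  by_contra hcon
  push Not at hcon
  obtain ⟨r, hr, hfree⟩ := free_union_ball (h.free i) hcon
  obtain ⟨ε, hε, hball⟩ := near_param h.arcs (Ioo_subset_Icc_self hu) hr (e := e)
  refine hX i (h.enlarge hr hfree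
    (fun e' => if e' = e then Icc 0 1 ∩ (Ioo (u - ε) (u + ε))ᶜ else Icc 0 1) (fun e' => ?_)
    (fun e' => ?_) (fun e' => ?_) (fun e' u' hu' hK' _ => ?_))
  · split_ifs
    · exact isCompact_Icc.inter_right isOpen_Ioo.isClosed_compl
    · exact isCompact_Icc
  · split_ifs
    · exact inter_subset_left
    · exact Subset.rfl
  · split_ifs with hee
    · subst hee
      rintro ⟨t, ht, hgt⟩
      have h1 := (h.arcs.inj e' e' u t hu ht.1 hgt.symm).2
      exact ht.2 (by rw [← h1]; exact ⟨by linarith, by linarith⟩)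
    · rintro ⟨t, ht, hgt⟩
      exact hee (h.arcs.inj e e' u t hu ht hgt.symm).1.symm
  · by_cases hee : e' = e
    · subst hee
      rw [if_pos rfl] at hK' ⊢
      have hu2 : u' ∈ Ioo (u - ε) (u + ε) := by
        by_contra h1
        exact hK' ⟨Ioo_subset_Icc_self hu', h1⟩
      right; right
      intro t ht
      by_cases htu : u < t
      · exact Or.inl (hi t ⟨htu, ht.2⟩)
      · right
        push Not at htu
        have ht1 : t ∈ Ioo (u - ε) (u + ε) := ⟨hu2.1.trans ht.1, by linarith⟩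
        exact ⟨fun hc => hc.2 ht1, hball t ⟨(hu'.1.trans ht.1).le, ht.2.le⟩
          (abs_lt.2 ⟨by linarith [ht1.1], by linarith [ht1.2]⟩)⟩
    · rw [if_neg hee] at hK'
      exact absurd (Ioo_subset_Icc_self hu') hK'

/-- **(D)** at a point of `XX U` which is not an inner point of an arc all colours are blocked -/
theorem blk_end (h : GMax g pal V U) {x : ℂ} (hX : x ∈ XX U)
    (hx : ∀ e, ∀ u ∈ Ioo (0 : ℝ) 1, g e u ≠ x) (i : Fin k) :
    ∃ y ∈ closure (U i), dist x y = 1 := by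
  classical
  by_contra hcon
  push Not at hcon
  obtain ⟨r, hr, hfree⟩ := free_union_ball (h.free i) hcon
  have hε : ∀ e, ∃ ε > 0, (g e 0 = x → ∀ t ∈ Icc (0 : ℝ) 1, t < ε → dist (g e t) x < r) ∧
      (g e 1 = x → ∀ t ∈ Icc (0 : ℝ) 1, 1 - ε < t → dist (g e t) x < r) := by
    intro e
    obtain ⟨ε1, hε1, h1⟩ := near_param h.arcs (u := 0) (by simp) hr (e := e)
    obtain ⟨ε2, hε2, h2⟩ := near_param h.arcs (u := 1) (by simp) hr (e := e)
    refine ⟨min ε1 ε2, lt_min hε1 hε2, fun he t ht htε => ?_, fun he t ht htε => ?_⟩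
    · rw [← he]
      exact h1 t ht (by rw [sub_zero, abs_of_nonneg ht.1]; exact lt_of_lt_of_le htε (min_le_left _ _))
    · rw [← he]
      have := min_le_right ε1 ε2
      exact h2 t ht (by rw [abs_sub_comm, abs_of_nonneg (by linarith [ht.2])]; linarith)
  choose ε hε0 hεL hεR using hε
  refine hX i (h.enlarge hr hfree (fun e => Icc 0 1 ∩ ({t | g e 0 = x → ε e ≤ t} ∩
    {t | g e 1 = x → t ≤ 1 - ε e})) (fun e => ?_) (fun e => inter_subset_left) (fun e => ?_)
    (fun e u hu hK _ => ?_))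
  · refine isCompact_Icc.inter_right (IsClosed.inter ?_ ?_)
    · by_cases he : g e 0 = x
      · simp only [he, true_imp_iff]
        exact isClosed_le continuous_const continuous_id
      · simp only [he, false_imp_iff]
        exact isClosed_univ
    · by_cases he : g e 1 = x
      · simp only [he, true_imp_iff]
        exact isClosed_le continuous_id continuous_const
      · simp only [he, false_imp_iff]
        exact isClosed_univ
  · rintro ⟨t, ⟨ht, ht1, ht2⟩, hgt⟩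
    rcases eq_or_lt_of_le ht.1 with h0 | h0
    · subst h0
      exact absurd (ht1 hgt) (not_le.2 (hε0 e))
    · rcases eq_or_lt_of_le ht.2 with h1 | h1
      · subst h1
        have := ht2 hgt
        linarith [hε0 e]
      · exact hx e t ⟨h0, h1⟩ hgt
  · right
    have hK' : ¬ ((g e 0 = x → ε e ≤ u) ∧ (g e 1 = x → u ≤ 1 - ε e)) := fun h1 =>
      hK ⟨Ioo_subset_Icc_self hu, h1.1, h1.2⟩
    by_cases h1 : g e 0 = x ∧ u < ε e
    · left
      intro t ht
      right
      have ht1 : t < ε e := ht.2.trans h1.2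
      exact ⟨fun hc => absurd (hc.2.1 h1.1) (not_le.2 ht1),
        hεL e h1.1 t ⟨ht.1.le, (ht.2.trans hu.2).le⟩ ht1⟩
    · have h2 : g e 1 = x ∧ 1 - ε e < u := by
        by_contra h3
        refine hK' ⟨fun h4 => ?_, fun h4 => ?_⟩
        · by_contra h5
          exact h1 ⟨h4, not_le.1 h5⟩
        · by_contra h5
          exact h3 ⟨h4, not_le.1 h5⟩
      right
      intro t ht
      right
      have ht1 : 1 - ε e < t := h2.2.trans ht.1
      exact ⟨fun hc => absurd (hc.2.2 h2.1) (not_le.2 ht1),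
        hεR e h2.1 t ⟨(hu.1.trans ht.1).le, ht.2.le⟩ ht1⟩

/-- **(E)** if the points of a short initial part of an arc are free for `i`, it is in `U i` -/
theorem init_cover (h : GMax g pal V U) {i : Fin k} {e : ι} {ε : ℝ}
    (hsmall : ∀ u ∈ Ioo 0 ε, dist (g e u) (g e 0) < 1 / 4) (hε1 : ε < 1)
    (hf : ∀ u ∈ Ioo 0 ε, ∀ y ∈ closure (U i), dist (g e u) y ≠ 1) :
    ∀ u ∈ Ioo 0 ε, g e u ∈ U i := by
  classical
  have hr : ∀ u, ∃ r > 0, u ∈ Ioo 0 ε → ∀ p ∈ U i ∪ ball (g e u) r, ∀ q ∈ U i ∪ ball (g e u) r,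
      dist p q ≠ 1 := by
    intro u
    by_cases hu : u ∈ Ioo 0 ε
    · obtain ⟨r, hr, hfree⟩ := free_union_ball (h.free i) (hf u hu)
      exact ⟨r, hr, fun _ => hfree⟩
    · exact ⟨1, one_pos, fun h1 => absurd h1 hu⟩
  choose r hr0 hr using hr
  set O : Set ℂ := ⋃ u ∈ Ioo 0 ε, ball (g e u) (min (r u) (1 / 4)) with hO
  have hOo : IsOpen O := isOpen_biUnion fun u _ => isOpen_ball
  have hOd : ∀ p ∈ O, dist p (g e 0) < 1 / 2 := by
    intro p hp
    obtain ⟨u, hu, hpu⟩ := mem_iUnion₂.1 hp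
    have h1 := dist_triangle p (g e u) (g e 0)
    have h2 := hsmall u hu
    have h3 : dist p (g e u) < 1 / 4 := lt_of_lt_of_le (mem_ball.1 hpu) (min_le_right _ _)
    linarith
  have hmix : ∀ p ∈ U i, ∀ q ∈ O, dist p q ≠ 1 := by
    intro p hp q hq
    obtain ⟨u, hu, hqu⟩ := mem_iUnion₂.1 hq
    exact hr u hu p (Or.inl hp) q (Or.inr (ball_subset_ball (min_le_left _ _) hqu))
  have hfree : ∀ p ∈ U i ∪ O, ∀ q ∈ U i ∪ O, dist p q ≠ 1 := by
    rintro p (hp | hp) q (hq | hq)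
    · exact h.free i p hp q hq
    · exact hmix p hp q hq
    · rw [dist_comm]; exact hmix q hq p hp
    · intro hpq
      have h1 := hOd p hp
      have h2 := hOd q hq
      have h3 := dist_triangle_right p q (g e 0)
      linarith
  have hmem : ∀ u ∈ Ioo 0 ε, g e u ∈ O := fun u hu =>
    mem_iUnion₂.2 ⟨u, hu, mem_ball_self (lt_min (hr0 u) (by norm_num))⟩
  have key := h.enlargeO hOo hfree
    (fun e' => if e' = e then Icc 0 1 ∩ (Ioo 0 ε)ᶜ else Icc 0 1) (fun e' => by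
      split_ifs
      · exact isCompact_Icc.inter_right isOpen_Ioo.isClosed_compl
      · exact isCompact_Icc) (fun e' => by
      split_ifs
      · exact inter_subset_left
      · exact Subset.rfl) (fun e' u' hu' hK' _ => by
      by_cases hee : e' = e
      · subst hee
        rw [if_pos rfl] at hK' ⊢
        have hu2 : u' ∈ Ioo 0 ε := by
          by_contra h1
          exact hK' ⟨Ioo_subset_Icc_self hu', h1⟩
        right; left
        intro t ht
        right
        have ht1 : t ∈ Ioo 0 ε := ⟨ht.1, ht.2.trans hu2.2⟩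
        exact ⟨fun hc => hc.2 ht1, hmem t ht1⟩
      · rw [if_neg hee] at hK'
        exact absurd (Ioo_subset_Icc_self hu') hK')
  intro u hu
  refine key ⟨hmem u hu, fun hcon => ?_⟩
  obtain ⟨e', u', hu', he⟩ := mem_iUnion.1 hcon
  have hK1 : u' ∈ Icc (0 : ℝ) 1 := by
    split_ifs at hu'
    · exact hu'.1
    · exact hu'
  obtain ⟨rfl, rfl⟩ := h.arcs.inj e e' u u' ⟨hu.1, hu.2.trans hε1⟩ hK1 he.symm
  rw [if_pos rfl] at hu'
  exact hu'.2 hu

end GMax

/-- the reversed arcs -/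
def rev (g : ι → ℝ → ℂ) : ι → ℝ → ℂ := fun e u => g e (1 - u)

theorem one_sub_Ioo {u : ℝ} (hu : u ∈ Ioo (0 : ℝ) 1) : 1 - u ∈ Ioo (0 : ℝ) 1 :=
  ⟨by linarith [hu.2], by linarith [hu.1]⟩

theorem one_sub_Icc {u : ℝ} (hu : u ∈ Icc (0 : ℝ) 1) : 1 - u ∈ Icc (0 : ℝ) 1 :=
  ⟨by linarith [hu.2], by linarith [hu.1]⟩

theorem rev_image (g : ι → ℝ → ℂ) (e : ι) : rev g e '' Icc 0 1 = g e '' Icc 0 1 := by
  ext x
  constructor
  · rintro ⟨u, hu, rfl⟩
    exact ⟨1 - u, one_sub_Icc hu, rfl⟩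
  · rintro ⟨u, hu, rfl⟩
    exact ⟨1 - u, one_sub_Icc hu, by simp [rev]⟩

theorem rev_rev (g : ι → ℝ → ℂ) : rev (rev g) = g := by
  funext e u
  simp [rev]

theorem Arcs.rev {g : ι → ℝ → ℂ} (h : Arcs g) : Arcs (rev g) := by
  refine ⟨fun e => ?_, ?_, fun e e' u u' hu hu' he => ?_⟩
  · exact (h.cont e).comp (by fun_prop) fun u hu => one_sub_Icc hu
  · have : (fun e => H355.rev g e '' Icc 0 1) = fun e => g e '' Icc 0 1 := by
      funext e; exact rev_image g e
    rw [this]; exact h.lf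
  · obtain ⟨h1, h2⟩ := h.inj e e' (1 - u) (1 - u') (one_sub_Ioo hu) (one_sub_Icc hu') he
    exact ⟨h1, by linarith⟩

theorem Good.rev {g : ι → ℝ → ℂ} {pal : ι → Set (Fin k)} {U : Fin k → Set ℂ}
    (h : Good g pal U) : Good (H355.rev g) pal U := by
  intro e u hu
  rcases h e (1 - u) (one_sub_Ioo hu) with h1 | h1 | ⟨l, h1⟩ | ⟨l, h1⟩
  · exact Or.inl h1
  · exact Or.inr (Or.inl h1)
  · exact Or.inr (Or.inr (Or.inr ⟨l, fun t ht => h1 (1 - t) ⟨by linarith [ht.2], by linarith [ht.1]⟩⟩))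
  · exact Or.inr (Or.inr (Or.inl ⟨l, fun t ht => h1 (1 - t) ⟨by linarith [ht.2], by linarith [ht.1]⟩⟩))

theorem GMax.rev {g : ι → ℝ → ℂ} {pal : ι → Set (Fin k)} {V U : Fin k → Set ℂ}
    (h : GMax g pal V U) : GMax (H355.rev g) pal V U :=
  ⟨h.arcs.rev, h.isOpen, h.sub, h.free, h.good.rev, fun i N hN hf hG => h.max i N hN hf (by
    have := hG.rev
    rwa [rev_rev] at this)⟩

end Vale.Agent.P032.H355
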