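import Vale.Agent.P032W.H355.Suff

/-!
# P032: the ends of the arcs of a maximal good family

`Acc g U e`: the points of `XX U` on the arc `e` accumulate at its start.
`Seg g U K`: compact sets `K e` of parameters such that the inner points of `K e` are regular, `K e`
contains an initial (final) piece if the points of `XX U` accumulate there, and no other end.
`Dd g U K`: the closed set `XX U` with the pieces of the arcs.
`end_pic`: the points of `Dd` near a point which is no inner point of an arc.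
-/

open Set Filter Topology Metric

noncomputable section

namespace Vale.Agent.P032.H355

open Vale.Agent.P032.Six

variable {k : ℕ} {ι : Type*} {g : ι → ℝ → ℂ} {pal : ι → Set (Fin k)} {V U : Fin k → Set ℂ}
  {K : ι → Set ℝ}

/-- accumulation at the start -/
def Acc (g : ι → ℝ → ℂ) (U : Fin k → Set ℂ) (e : ι) : Prop :=
  ∀ δ > 0, ∃ u ∈ Ioo (0 : ℝ) 1, u < δ ∧ g e u ∈ XX U

/-- the pieces -/
structure Seg (g : ι → ℝ → ℂ) (U : Fin k → Set ℂ) (K : ι → Set ℝ) : Prop where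
  closed : ∀ e, IsClosed (K e)
  sub : ∀ e, K e ⊆ Icc 0 1
  reg : ∀ e, ∀ u ∈ K e, u ∈ Ioo (0 : ℝ) 1 → ¬ LT g U e u ∧ ¬ RT g U e u
  zero : ∀ e, (0 : ℝ) ∈ K e → Acc g U e
  one : ∀ e, (1 : ℝ) ∈ K e → Acc (rev g) U e
  left : ∀ e, Acc g U e → ∃ η > 0, ∀ u ∈ Ioc 0 η, u ∈ K e
  right : ∀ e, Acc (rev g) U e → ∃ η > 0, ∀ u ∈ Ioc 0 η, 1 - u ∈ K e

/-- the reversed pieces -/
def revK (K : ι → Set ℝ) : ι → Set ℝ := fun e => {u | 1 - u ∈ K e}

theorem revK_revK (K : ι → Set ℝ) : revK (revK K) = K := by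
  funext e
  ext u
  simp [revK]

theorem acc_reg {e : ι} (h : Acc g U e) :
    ∃ d ∈ Ioo (0 : ℝ) 1, ∀ u ∈ Ioc 0 d, ¬ LT g U e u ∧ ¬ RT g U e u := by
  obtain ⟨d0, hd0, -, hX0⟩ := h 1 one_pos
  obtain ⟨d, hd, hd1, -⟩ := h d0 hd0.1
  refine ⟨d, hd, fun u hu => ⟨?_, ?_⟩⟩
  · rintro ⟨l, hl⟩
    obtain ⟨t, ht, htu, htX⟩ := h u hu.1
    exact htX l (hl t ⟨ht.1, htu⟩)
  · rintro ⟨l, hl⟩
    exact hX0 l (hl d0 ⟨lt_of_le_of_lt hu.2 hd1, hd0.2⟩)

theorem exists_seg (g : ι → ℝ → ℂ) (U : Fin k → Set ℂ) : ∃ K : ι → Set ℝ, Seg g U K := by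
  have h1 : ∀ (g : ι → ℝ → ℂ) (e : ι), ∃ d ∈ Ioo (0 : ℝ) 1, Acc g U e →
      ∀ u ∈ Ioc 0 d, ¬ LT g U e u ∧ ¬ RT g U e u := by
    intro g e
    by_cases h : Acc g U e
    · obtain ⟨d, hd, hd1⟩ := acc_reg h
      exact ⟨d, hd, fun _ => hd1⟩
    · exact ⟨1 / 2, by norm_num, fun h' => absurd h' h⟩
  choose a ha har using h1 g
  choose b hb hbr using h1 (rev g)
  refine ⟨fun e => {u | Acc g U e ∧ u ∈ Icc 0 (a e)} ∪ {u | Acc (rev g) U e ∧ 1 - u ∈ Icc 0 (b e)},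
    fun e => ?_, fun e => ?_, fun e u hu hu' => ?_, fun e h0 => ?_, fun e h0 => ?_, fun e he => ?_,
    fun e he => ?_⟩
  · refine IsClosed.union ?_ ?_
    · exact (isClosed_const (p := Acc g U e)).inter isClosed_Icc
    · exact (isClosed_const (p := Acc (rev g) U e)).inter
        (isClosed_Icc.preimage (continuous_const.sub continuous_id))
  · rintro u (⟨-, h2⟩ | ⟨-, h2⟩)
    · exact ⟨h2.1, h2.2.trans (ha e).2.le⟩
    · exact ⟨by linarith [h2.2, (hb e).2], by linarith [h2.1]⟩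
  · rcases hu with ⟨h1, h2⟩ | ⟨h1, h2⟩
    · exact har e h1 u ⟨hu'.1, h2.2⟩
    · obtain ⟨h3, h4⟩ := hbr e h1 (1 - u) ⟨by linarith [hu'.2], h2.2⟩
      refine ⟨fun h5 => h4 (RT_rev.2 ?_), fun h5 => h3 (LT_rev.2 ?_)⟩
      · rwa [sub_sub_cancel]
      · rwa [sub_sub_cancel]
  · rcases h0 with ⟨h1, -⟩ | ⟨-, h2⟩
    · exact h1
    · exact absurd h2.2 (by linarith [(hb e).2])
  · rcases h0 with ⟨-, h2⟩ | ⟨h1, -⟩
    · exact absurd h2.2 (by linarith [(ha e).2])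
    · exact h1
  · exact ⟨a e, (ha e).1, fun u hu => Or.inl ⟨he, hu.1.le, hu.2⟩⟩
  · exact ⟨b e, (hb e).1, fun u hu => Or.inr ⟨he, by rw [sub_sub_cancel]; exact ⟨hu.1.le, hu.2⟩⟩⟩

theorem Seg.rev (hs : Seg g U K) : Seg (H355.rev g) U (revK K) where
  closed e := (hs.closed e).preimage (continuous_const.sub continuous_id)
  sub e u hu := by
    have := hs.sub e hu
    exact ⟨by linarith [this.2], by linarith [this.1]⟩
  reg e u hu hu' := by
    obtain ⟨h1, h2⟩ := hs.reg e _ hu (one_sub_Ioo hu')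
    exact ⟨fun h => h2 (LT_rev.1 h), fun h => h1 (RT_rev.1 h)⟩
  zero e h := hs.one e (by simpa [revK] using h)
  one e h := by
    rw [rev_rev]
    exact hs.zero e (by simpa [revK] using h)
  left e h := hs.right e h
  right e h := by
    rw [rev_rev] at h
    obtain ⟨η, hη, h1⟩ := hs.left e h
    exact ⟨η, hη, fun u hu => by simpa [revK] using h1 u hu⟩

/-- the closed set -/
def Dd (g : ι → ℝ → ℂ) (U : Fin k → Set ℂ) (K : ι → Set ℝ) : Set ℂ := XX U ∪ ⋃ e, g e '' K e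

theorem Dd_rev (g : ι → ℝ → ℂ) (U : Fin k → Set ℂ) (K : ι → Set ℝ) :
    Dd (rev g) U (revK K) = Dd g U K := by
  have : ∀ e, rev g e '' revK K e = g e '' K e := by
    intro e
    ext x
    constructor
    · rintro ⟨u, hu, rfl⟩
      exact ⟨1 - u, hu, rfl⟩
    · rintro ⟨u, hu, rfl⟩
      refine ⟨1 - u, ?_, ?_⟩
      · simpa [revK] using hu
      · simp [rev]
  unfold Dd
  simp only [this]

theorem Seg.isClosed_Dd (hs : Seg g U K) (h : GMax g pal V U) : IsClosed (Dd g U K) := by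
  refine h.isClosed_XX.union ?_
  refine (h.arcs.lf.subset fun e => image_mono (hs.sub e)).isClosed_iUnion fun e => ?_
  refine (IsCompact.image_of_continuousOn ?_ ((h.arcs.cont e).mono (hs.sub e))).isClosed
  exact isCompact_Icc.of_isClosed_subset (hs.closed e) (hs.sub e)

theorem Seg.inner (hs : Seg g U K) (h : Arcs g) {e : ι} {u : ℝ} (hu : u ∈ Ioo (0 : ℝ) 1)
    (hx : g e u ∈ Dd g U K) : g e u ∈ XX U ∨ u ∈ K e := by
  rcases hx with hX | hx
  · exact Or.inl hX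
  · obtain ⟨e', t, ht, hte⟩ := mem_iUnion.1 hx
    obtain ⟨rfl, rfl⟩ := h.inj e e' u t hu (hs.sub e' ht) hte.symm
    exact Or.inr ht

theorem Seg.pt (hs : Seg g U K) (h : Arcs g) {e : ι} {u : ℝ} (hu : u ∈ Ioo (0 : ℝ) 1)
    (hx : g e u ∈ Dd g U K) : Pt g U e u :=
  (hs.inner h hu hx).imp_right fun h1 => hs.reg e u h1 hu

/-- at the start -/
theorem Arcs.tendsto_zero (h : Arcs g) (e : ι) : Tendsto (g e) (𝓝[>] 0) (𝓝 (g e 0)) := by
  have h1 : ContinuousWithinAt (g e) (Icc 0 1) 0 := h.cont e 0 (left_mem_Icc.2 zero_le_one)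
  refine h1.mono_left ?_
  have h2 : Ioo (0 : ℝ) 1 ∈ 𝓝[>] (0 : ℝ) := Ioo_mem_nhdsGT one_pos
  exact le_inf nhdsWithin_le_nhds (le_principal_iff.2 (mem_of_superset h2 Ioo_subset_Icc_self))

theorem Acc.XX_zero (h : GMax g pal V U) {e : ι} (he : Acc g U e) : g e 0 ∈ XX U := by
  refine h.isClosed_XX.mem_of_frequently_of_tendsto (f := g e) (b := 𝓝[>] 0) ?_
    (h.arcs.tendsto_zero e)
  rw [frequently_nhdsWithin_iff, Metric.nhds_basis_ball.frequently_iff]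
  intro δ hδ
  obtain ⟨u, hu, hu1, hX⟩ := he δ hδ
  refine ⟨u, ?_, hX, hu.1⟩
  rw [mem_ball, Real.dist_eq, sub_zero, abs_of_pos hu.1]
  exact hu1

theorem Seg.end_XX (hs : Seg g U K) (h : GMax g pal V U) {x : ℂ} (hx : x ∈ Dd g U K)
    (hx' : ∀ e, ∀ u ∈ Ioo (0 : ℝ) 1, g e u ≠ x) : x ∈ XX U := by
  rcases hx with hX | hx
  · exact hX
  · obtain ⟨e, u, hu, rfl⟩ := mem_iUnion.1 hx
    have hu1 := hs.sub e hu
    rcases eq_or_lt_of_le hu1.1 with h0 | h0
    · rw [← h0] at hu ⊢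
      exact (hs.zero e hu).XX_zero h
    rcases eq_or_lt_of_le hu1.2 with h1 | h1
    · rw [h1] at hu ⊢
      have := (hs.one e hu).XX_zero h.rev
      simpa [H355.rev] using this
    · exact absurd rfl (hx' e u ⟨h0, h1⟩)

theorem Seg.on_arc (hs : Seg g U K) (h : GMax g pal V U) (hb : Base g pal V) {x : ℂ}
    (hx : x ∈ Dd g U K) : ∃ e, ∃ u ∈ Icc (0 : ℝ) 1, g e u = x := by
  rcases hx with hX | hx
  · exact h.on_arc hb hX
  · obtain ⟨e, u, hu, rfl⟩ := mem_iUnion.1 hx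
    exact ⟨e, u, hs.sub e hu, rfl⟩

theorem Seg.near (hs : Seg g U K) (h : GMax g pal V U) (hb : Base g pal V) {e : ι} {u : ℝ}
    (hu : u ∈ Ioo (0 : ℝ) 1) (hx : g e u ∈ Dd g U K) :
    ∀ᶠ y in 𝓝 (g e u), y ∈ Dd g U K → ∃ t ∈ Ioo (0 : ℝ) 1, g e t = y ∧
      (t = u ∨ (¬ LT g U e t ∧ ¬ RT g U e t)) := by
  filter_upwards [h.near_arc hu (hs.pt h.arcs hu hx)] with y hy hyD
  obtain ⟨e', t, ht, hty⟩ := hs.on_arc h hb hyD
  obtain ⟨rfl, ht', h1⟩ := hy e' t ht hty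
  subst hty
  refine ⟨t, ht', rfl, ?_⟩
  have hP := hs.pt h.arcs ht' hyD
  rcases h1 with h1 | h1 | ⟨h1, h2⟩ | ⟨h1, h2⟩
  · exact Or.inl h1
  · exact Or.inr h1
  · rcases hP with h3 | h3
    · obtain ⟨l, hl⟩ := h2
      exact absurd (hl t ⟨ht'.1, h1⟩) (h3 l)
    · exact absurd (h2.mono h1.le) h3.1
  · rcases hP with h3 | h3
    · obtain ⟨l, hl⟩ := h2
      exact absurd (hl t ⟨h1, ht'.2⟩) (h3 l)
    · exact absurd (h2.mono h1.le) h3.2

/-- near a point which is no inner point of an arc -/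
theorem Arcs.near_end (h : Arcs g) {z : ℂ} (hz : ∀ e, ∀ u ∈ Ioo (0 : ℝ) 1, g e u ≠ z)
    {η : ι → ℝ} (hη : ∀ e, 0 < η e) : ∀ᶠ x in 𝓝 z, ∀ e, ∀ u ∈ Icc (0 : ℝ) 1, g e u = x →
      (g e 0 = z ∧ u < η e) ∨ (g e 1 = z ∧ 1 - η e < u) := by
  set S : ι → Set ℝ := fun e => Icc 0 1 ∩ ({u | g e 0 = z ∧ u < η e}ᶜ ∩ {u | g e 1 = z ∧
    1 - η e < u}ᶜ) with hS
  have hSc : ∀ e, IsClosed (S e) := by
    intro e
    refine isClosed_Icc.inter (IsClosed.inter ?_ ?_)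
    · refine IsOpen.isClosed_compl ?_
      exact (isOpen_const (p := g e 0 = z)).inter (isOpen_Iio (a := η e))
    · refine IsOpen.isClosed_compl ?_
      exact (isOpen_const (p := g e 1 = z)).inter (isOpen_Ioi (a := 1 - η e))
  have hcl : IsClosed (⋃ e, g e '' S e) := by
    refine (h.lf.subset fun e => image_mono inter_subset_left).isClosed_iUnion fun e => ?_
    refine (IsCompact.image_of_continuousOn ?_ ((h.cont e).mono inter_subset_left)).isClosed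
    exact isCompact_Icc.of_isClosed_subset (hSc e) inter_subset_left
  have hzS : z ∉ ⋃ e, g e '' S e := by
    intro hcon
    obtain ⟨e, u, ⟨hu, h1, h2⟩, hue⟩ := mem_iUnion.1 hcon
    rcases eq_or_lt_of_le hu.1 with h3 | h3
    · rw [← h3] at hue
      exact h1 ⟨hue, by rw [← h3]; exact hη e⟩
    rcases eq_or_lt_of_le hu.2 with h4 | h4
    · rw [h4] at hue
      exact h2 ⟨hue, by linarith [hη e]⟩
    exact hz e u ⟨h3, h4⟩ hue
  filter_upwards [hcl.isOpen_compl.mem_nhds hzS] with x hx e u hu hux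
  by_contra hcon
  rw [not_or] at hcon
  exact hx (mem_iUnion.2 ⟨e, u, ⟨hu, hcon.1, hcon.2⟩, hux⟩)

theorem Seg.eta (hs : Seg g U K) (h : Arcs g) {ε : ℝ} (hε : 0 < ε) (e : ι) :
    ∃ η : ℝ, 0 < η ∧ η ≤ 1 / 2 ∧ ∀ u ∈ Ioo (0 : ℝ) 1, u < η → g e u ∈ Dd g U K →
      Acc g U e ∧ ∀ t ∈ Ioc 0 u, t ∈ K e ∧ dist (g e t) (g e 0) < ε := by
  by_cases hA : Acc g U e
  · obtain ⟨η, hη, h1⟩ := hs.left e hA
    have h2 := (h.tendsto_zero e).eventually (ball_mem_nhds _ hε)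
    obtain ⟨δ, hδ, h3⟩ := Metric.eventually_nhds_iff.1 (eventually_nhdsWithin_iff.1 h2)
    refine ⟨min (min η δ) (1 / 2), lt_min (lt_min hη hδ) (by norm_num), min_le_right _ _,
      fun u hu hu1 _ => ⟨hA, fun t ht => ⟨h1 t ⟨ht.1, ht.2.trans (hu1.le.trans
        ((min_le_left _ _).trans (min_le_left _ _)))⟩, h3 ?_ ht.1⟩⟩⟩
    rw [Real.dist_eq, sub_zero, abs_of_pos ht.1]
    exact lt_of_le_of_lt ht.2 (lt_of_lt_of_le hu1 ((min_le_left _ _).trans (min_le_right _ _)))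
  · have h0 : (0 : ℝ) ∉ K e := fun h1 => hA (hs.zero e h1)
    obtain ⟨η1, hη1, h1⟩ := Metric.eventually_nhds_iff.1 ((hs.closed e).isOpen_compl.mem_nhds h0)
    have hA' : ∃ δ > 0, ∀ u ∈ Ioo (0 : ℝ) 1, u < δ → g e u ∉ XX U := by
      by_contra hcon
      push Not at hcon
      exact hA hcon
    obtain ⟨δ, hδ, h2⟩ := hA'
    refine ⟨min (min η1 δ) (1 / 2), lt_min (lt_min hη1 hδ) (by norm_num), min_le_right _ _,
      fun u hu hu1 hD => ?_⟩
    have h3 : u < η1 := lt_of_lt_of_le hu1 ((min_le_left _ _).trans (min_le_left _ _))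
    have h4 : u < δ := lt_of_lt_of_le hu1 ((min_le_left _ _).trans (min_le_right _ _))
    rcases hs.inner h hu hD with h5 | h5
    · exact absurd h5 (h2 u hu h4)
    · exact absurd h5 (h1 (by rw [Real.dist_eq, sub_zero, abs_of_pos hu.1]; exact h3))

/-- `x` is on the regular initial piece of the arc `e` which starts in `z`, near `z` -/
def Lft (g : ι → ℝ → ℂ) (U : Fin k → Set ℂ) (K : ι → Set ℝ) (ε : ℝ) (e : ι) (z x : ℂ) : Prop :=
  g e 0 = z ∧ Acc g U e ∧ ∃ u ∈ Ioo (0 : ℝ) 1, g e u = x ∧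
    ∀ t ∈ Ioc 0 u, t ∈ K e ∧ dist (g e t) (g e 0) < ε

/-- the points of `Dd` near a point which is no inner point of an arc -/
theorem Seg.end_pic (hs : Seg g U K) (h : GMax g pal V U) (hb : Base g pal V) {z : ℂ}
    (hz : ∀ e, ∀ u ∈ Ioo (0 : ℝ) 1, g e u ≠ z) {ε : ℝ} (hε : 0 < ε) :
    ∀ᶠ x in 𝓝 z, x ≠ z → x ∈ Dd g U K →
      ∃ e, Lft g U K ε e z x ∨ Lft (H355.rev g) U (revK K) ε e z x := by
  choose a ha0 ha1 ha using hs.eta h.arcs hε
  choose b hb0 hb1 hb' using hs.rev.eta h.arcs.rev hε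
  filter_upwards [h.arcs.near_end hz (η := fun e => min (a e) (b e))
    fun e => lt_min (ha0 e) (hb0 e)] with x hx hxz hxD
  obtain ⟨e, u, hu, hux⟩ := hs.on_arc h hb hxD
  refine ⟨e, ?_⟩
  rcases hx e u hu hux with ⟨h1, h2⟩ | ⟨h1, h2⟩
  · left
    have hu0 : 0 < u := by
      rcases eq_or_lt_of_le hu.1 with h3 | h3
      · rw [← h3, h1] at hux
        exact absurd hux.symm hxz
      · exact h3
    have hua : u < a e := lt_of_lt_of_le h2 (min_le_left _ _)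
    have hui : u ∈ Ioo (0 : ℝ) 1 := ⟨hu0, by linarith [ha1 e]⟩
    obtain ⟨h3, h4⟩ := ha e u hui hua (by rw [hux]; exact hxD)
    exact ⟨h1, h3, u, hui, hux, h4⟩
  · right
    have hu0 : u < 1 := by
      rcases eq_or_lt_of_le hu.2 with h3 | h3
      · rw [h3, h1] at hux
        exact absurd hux.symm hxz
      · exact h3
    have hub : 1 - u < b e := by
      have := min_le_right (a e) (b e)
      linarith
    have hui : 1 - u ∈ Ioo (0 : ℝ) 1 := ⟨by linarith, by linarith [hb1 e]⟩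
    have hux' : H355.rev g e (1 - u) = x := by simpa [H355.rev] using hux
    obtain ⟨h3, h4⟩ := hb' e (1 - u) hui hub (by rw [hux', Dd_rev]; exact hxD)
    exact ⟨by simpa [H355.rev] using h1, h3, 1 - u, hui, hux', h4⟩

theorem Seg.loc (hs : Seg g U K) (h : GMax g pal V U) (hb : Base g pal V) {x : ℂ}
    (hx : x ∈ Dd g U K) (hX : x ∉ XX U) :
    ∀ᶠ y in 𝓝 x, y ∈ Dd g U K → BB g pal U y = BB g pal U x := by
  by_cases hin : ∃ e, ∃ u ∈ Ioo (0 : ℝ) 1, g e u = x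
  · obtain ⟨e, u, hu, rfl⟩ := hin
    filter_upwards [hs.near h hb hu hx] with y hy hyD
    obtain ⟨t, ht, rfl, h1⟩ := hy hyD
    rw [h.BB_inner hb hu, h.BB_inner hb ht]
    rcases h1 with rfl | h1
    · rfl
    · have h2 := (hs.pt h.arcs hu hx).resolve_left hX
      rw [GMax.cc_reg h1.1 h1.2, GMax.cc_reg h2.1 h2.2]
  · push Not at hin
    exact absurd (hs.end_XX h hx hin) hX

theorem Seg.BB_seg (hs : Seg g U K) (h : GMax g pal V U) (hb : Base g pal V) {e : ι} {u : ℝ}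
    (hu : u ∈ K e) (hu' : u ∈ Ioo (0 : ℝ) 1) : BB g pal U (g e u) = pal e := by
  rw [h.BB_inner hb hu', GMax.cc_reg (hs.reg e u hu hu').1 (hs.reg e u hu hu').2]

theorem Seg.usc (hs : Seg g U K) (h : GMax g pal V U) (hb : Base g pal V) {x : ℂ}
    (hx : x ∈ Dd g U K) : ∀ᶠ y in 𝓝 x, y ∈ Dd g U K → BB g pal U y ⊆ BB g pal U x := by
  by_cases hin : ∃ e, ∃ u ∈ Ioo (0 : ℝ) 1, g e u = x
  · obtain ⟨e, u, hu, rfl⟩ := hin
    filter_upwards [hs.near h hb hu hx] with y hy hyD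
    obtain ⟨t, ht, rfl, h1⟩ := hy hyD
    rw [h.BB_inner hb hu, h.BB_inner hb ht]
    rcases h1 with rfl | h1
    · exact Subset.rfl
    · rw [GMax.cc_reg h1.1 h1.2]
      exact fun i hi => Or.inl hi
  · push Not at hin
    have hX := hs.end_XX h hx hin
    filter_upwards [hs.end_pic h hb hin one_pos] with y hy hyD
    by_cases hyx : y = x
    · rw [hyx]
    obtain ⟨e, h1⟩ := hy hyx hyD
    rcases h1 with ⟨h0, -, u, hu, rfl, hK⟩ | ⟨h0, -, u, hu, rfl, hK⟩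
    · rw [hs.BB_seg h hb (hK u ⟨hu.1, le_rfl⟩).1 hu]
      intro i hi
      refine h.BB_end hX hin ?_
      rw [← h0]
      exact h.cn_pal_zero hb hi
    · have h2 : BB g pal U (g e (1 - u)) = pal e :=
        hs.BB_seg h hb (hK u ⟨hu.1, le_rfl⟩).1 (one_sub_Ioo hu)
      rw [show H355.rev g e u = g e (1 - u) from rfl, h2]
      intro i hi
      refine h.BB_end hX hin ?_
      rw [← h0]
      exact h.rev.cn_pal_zero hb.rev hi

theorem Seg.suff (hs : Seg g U K) (h : GMax g pal V U) (hb : Base g pal V) {x : ℂ}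
    (hx : x ∈ Dd g U K) :
    ∀ᶠ w in 𝓝 x, w ∉ XX U → ∃ j ∈ BB g pal U x, w ∈ U j := by
  by_cases hin : ∃ e, ∃ u ∈ Ioo (0 : ℝ) 1, g e u = x
  · obtain ⟨e, u, hu, rfl⟩ := hin
    rw [h.BB_inner hb hu]
    exact h.suff_inner hb hu (hs.pt h.arcs hu hx)
  · push Not at hin
    have hX := hs.end_XX h hx hin
    choose a ha0 ha using h.start_suff hb
    choose b hb0 hb' using h.rev.start_suff hb.rev
    filter_upwards [h.arcs.near_end hin (η := fun e => min (min (a e) (b e)) (1 / 2))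
      fun e => lt_min (lt_min (ha0 e) (hb0 e)) (by norm_num), pal_nhd V x] with w hw hwV hwX
    by_cases harc : ∃ e, w ∈ g e '' Icc 0 1
    · obtain ⟨e, u, hu, huw⟩ := harc
      have hwx : w ≠ x := by
        rintro rfl
        exact hwX hX
      have m1 := min_le_left (min (a e) (b e)) (1 / 2)
      have m2 := min_le_right (min (a e) (b e)) (1 / 2)
      have m3 := min_le_left (a e) (b e)
      have m4 := min_le_right (a e) (b e)
      rcases hw e u hu huw with ⟨h0, h1⟩ | ⟨h0, h1⟩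
      · have hu0 : 0 < u := by
          rcases eq_or_lt_of_le hu.1 with h3 | h3
          · rw [← h3, h0] at huw
            exact absurd huw.symm hwx
          · exact h3
        obtain ⟨j, hj, hcn⟩ := ha e u ⟨hu0, by linarith⟩ (by linarith) (by rw [huw]; exact hwX)
        rw [huw] at hj
        rw [h0] at hcn
        exact ⟨j, h.BB_end hX hin hcn, hj⟩
      · have hu0 : u < 1 := by
          rcases eq_or_lt_of_le hu.2 with h3 | h3
          · rw [h3, h0] at huw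
            exact absurd huw.symm hwx
          · exact h3
        have e1 : H355.rev g e (1 - u) = w := by simpa [H355.rev] using huw
        have e2 : H355.rev g e 0 = x := by simpa [H355.rev] using h0
        obtain ⟨j, hj, hcn⟩ := hb' e (1 - u) ⟨by linarith, by linarith⟩ (by linarith)
          (by rw [e1]; exact hwX)
        rw [e1] at hj
        rw [e2] at hcn
        exact ⟨j, h.BB_end hX hin hcn, hj⟩
    · push Not at harc
      obtain ⟨i, hi⟩ := hb.off w harc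
      exact ⟨i, h.BB_end hX hin ((hb.conn i x (hwV (subset_closure hi))).mono (h.sub i)),
        h.sub i hi⟩

/-- points of `XX U` on the initial piece accumulate at `z` -/
theorem Lft.freq (h : Arcs g) {ε : ℝ} {e : ι} {z x : ℂ} (hl : Lft g U K ε e z x) :
    ∃ᶠ w in 𝓝 z, w ∈ XX U ∧ ∃ t ∈ K e, t ∈ Ioo (0 : ℝ) 1 ∧ g e t = w := by
  obtain ⟨h0, hA, u, hu, -, hK⟩ := hl
  rw [← h0]
  refine (h.tendsto_zero e).frequently ?_
  rw [frequently_nhdsWithin_iff, Metric.nhds_basis_ball.frequently_iff]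
  intro δ hδ
  obtain ⟨t, ht, ht1, hX⟩ := hA (min δ u) (lt_min hδ hu.1)
  refine ⟨t, ?_, ⟨hX, t, (hK t ⟨ht.1, (ht1.trans_le (min_le_right _ _)).le⟩).1, ht, rfl⟩, ht.1⟩
  rw [mem_ball, Real.dist_eq, sub_zero, abs_of_pos ht.1]
  exact ht1.trans_le (min_le_left _ _)

/-- the germ of the arc -/
theorem Lft.germ (h : GMax g pal V U) {T : ℂ → Set (Fin k)}
    (hT : ∀ e, ∀ u ∈ K e, u ∈ Ioo (0 : ℝ) 1 → T (g e u) ⊆ pal e) {ε : ℝ} (hε : ε ≤ 1 / 4)
    {e : ι} {z x : ℂ} (hl : Lft g U K ε e z x) (hx : pal e ⊆ T x) :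
    ∃ Q : Set ℂ, IsPreconnected Q ∧ Q ⊆ ball z ε ∧ (∀ w ∈ Q, T w ⊆ T x) ∧
      ∀ i, ∃ w ∈ Q, ∃ y ∈ closure (U i), dist w y = 1 := by
  obtain ⟨h0, hA, u, hu, -, hK⟩ := hl
  refine ⟨g e '' Ioc 0 u, ?_, ?_, ?_, fun i => ?_⟩
  · refine isPreconnected_Ioc.image _ ((h.arcs.cont e).mono fun t ht => ?_)
    exact ⟨ht.1.le, ht.2.trans hu.2.le⟩
  · rintro _ ⟨t, ht, rfl⟩
    rw [← h0]
    exact mem_ball.2 (hK t ht).2
  · rintro _ ⟨t, ht, rfl⟩
    exact (hT e t (hK t ht).1 ⟨ht.1, lt_of_le_of_lt ht.2 hu.2⟩).trans hx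
  · by_contra hcon
    push Not at hcon
    have h1 := h.init_cover (i := i) (e := e) (ε := u)
      (fun t ht => lt_of_lt_of_le (hK t ⟨ht.1, ht.2.le⟩).2 hε) hu.2
      (fun t ht y hy => hcon _ ⟨t, ⟨ht.1, ht.2.le⟩, rfl⟩ y hy)
    obtain ⟨t, ht, htu, hX⟩ := hA u hu.1
    exact hX i (h1 t ⟨ht.1, htu⟩)

end Vale.Agent.P032.H355
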