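import Vale.Agent.P032W.H355.Good
import Vale.Agent.P032W.H355.Cells

/-!
# P032: structure of a maximal good family

`Base g pal V`: the sets `V i` are the open sets of a map whose edges are the arcs `g e`.
For a maximal good family `U` above `V`, `BB g pal U x` are the allowed colours at `x`:
`GMax.suff`: near a point of `XX U`, or a regular point of an arc, they are sufficient.
`GMax.lf`: the special points are locally finite; at the others the allowed palette is `pal e`.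
-/

open Set Filter Topology Metric

noncomputable section

namespace Vale.Agent.P032.H355

open Vale.Agent.P032.Six

variable {k : ℕ} {ι : Type*}

/-- the closure of `U i` contains a connected set through `x` which meets `U i` -/
def Cn (U : Fin k → Set ℂ) (x : ℂ) (i : Fin k) : Prop :=
  ∃ Q ⊆ closure (U i), IsPreconnected Q ∧ x ∈ Q ∧ (Q ∩ U i).Nonempty

theorem Cn.mono {V U : Fin k → Set ℂ} {x : ℂ} {i : Fin k} (h : Cn V x i) (hVU : V i ⊆ U i) :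
    Cn U x i := by
  obtain ⟨Q, hQ, h1, h2, h3⟩ := h
  exact ⟨Q, hQ.trans (closure_mono hVU), h1, h2, h3.mono (inter_subset_inter_right Q hVU)⟩

theorem Cn.of_mem {U : Fin k → Set ℂ} {x : ℂ} {i : Fin k} (h : x ∈ U i) : Cn U x i :=
  ⟨{x}, by simpa using subset_closure h, isPreconnected_singleton, rfl, x, rfl, h⟩

/-- the open sets of a map whose edges are arcs -/
structure Base (g : ι → ℝ → ℂ) (pal : ι → Set (Fin k)) (V : Fin k → Set ℂ) : Prop where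
  arcs : Arcs g
  isOpen : ∀ i, IsOpen (V i)
  free : ∀ i, ∀ x ∈ V i, ∀ y ∈ V i, dist x y ≠ 1
  off : ∀ x, (∀ e, x ∉ g e '' Icc 0 1) → ∃ i, x ∈ V i
  near : ∀ e, ∀ u ∈ Ioo (0 : ℝ) 1, ∀ᶠ w in 𝓝 (g e u), w ∈ g e '' Icc 0 1 ∨ ∃ i ∈ pal e, w ∈ V i
  inner : ∀ e, ∀ u ∈ Ioo (0 : ℝ) 1, ∀ i, g e u ∈ V i → i ∈ pal e
  pal_two : ∀ e, (pal e).ncard ≤ 2
  dense : Dense (⋃ i, V i)
  palcl : ∀ e, ∀ u ∈ Ioo (0 : ℝ) 1, ∀ i ∈ pal e, g e u ∈ closure (V i)
  fin : ∀ i x r, ∃ F : Set (Set ℂ), F.Finite ∧ (∀ A ∈ F, IsPreconnected A ∧ A ⊆ V i) ∧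
    V i ∩ ball x r ⊆ ⋃₀ F

variable {g : ι → ℝ → ℂ} {pal : ι → Set (Fin k)} {V U : Fin k → Set ℂ}

theorem Base.conn (hb : Base g pal V) (i : Fin k) (x : ℂ) (hx : x ∈ closure (V i)) :
    Cn V x i := by
  obtain ⟨F, hF, hFV, hcov⟩ := hb.fin i x 1
  have h2 : x ∈ closure (V i ∩ ball x 1) := by
    rw [mem_closure_iff_nhds]
    intro t ht
    obtain ⟨v, hv1, hv2⟩ := mem_closure_iff_nhds.1 hx (t ∩ ball x 1)
      (inter_mem ht (ball_mem_nhds x one_pos))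
    exact ⟨v, hv1.1, hv2, hv1.2⟩
  have h4 := closure_mono hcov h2
  rw [Set.sUnion_eq_biUnion, hF.closure_biUnion] at h4
  obtain ⟨A, hA, hxA⟩ := mem_iUnion₂.1 h4
  have hne : A.Nonempty := closure_nonempty_iff.1 ⟨x, hxA⟩
  refine ⟨insert x A, ?_, ?_, mem_insert _ _, ?_⟩
  · exact insert_subset hx ((hFV A hA).2.trans subset_closure)
  · exact (hFV A hA).1.subset_closure (subset_insert _ _) (insert_subset hxA subset_closure)
  · exact hne.mono fun y hy => ⟨Or.inr hy, (hFV A hA).2 hy⟩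

theorem Base.mem_fam (hb : Base g pal V) : V ∈ Fam g pal V := by
  refine ⟨hb.isOpen, fun i => Subset.rfl, hb.free, fun e u hu => ?_⟩
  by_cases hX : g e u ∈ XX V
  · exact Or.inl hX
  · have hX : ¬ ∀ i, g e u ∉ V i := hX
    push Not at hX
    obtain ⟨i, hi⟩ := hX
    exact Or.inr (Or.inl ⟨i, hb.inner e u hu i hi, hi⟩)

theorem Base.exists_gmax (hb : Base g pal V) : ∃ U, GMax g pal V U :=
  exists_good hb.arcs hb.mem_fam

theorem Base.rev (hb : Base g pal V) : Base (H355.rev g) pal V := by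
  refine ⟨hb.arcs.rev, hb.isOpen, hb.free, fun x hx => hb.off x fun e => ?_, fun e u hu => ?_,
    fun e u hu i hi => hb.inner e (1 - u) (one_sub_Ioo hu) i hi, hb.pal_two, hb.dense,
    fun e u hu i hi => hb.palcl e (1 - u) (one_sub_Ioo hu) i hi, hb.fin⟩
  · rw [← rev_image]; exact hx e
  · rw [rev_image]
    exact hb.near e (1 - u) (one_sub_Ioo hu)

/-- left type -/
def LT (g : ι → ℝ → ℂ) (U : Fin k → Set ℂ) (e : ι) (u : ℝ) : Prop :=
  ∃ l, ∀ t ∈ Ioo 0 u, g e t ∈ U l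

/-- right type -/
def RT (g : ι → ℝ → ℂ) (U : Fin k → Set ℂ) (e : ι) (u : ℝ) : Prop :=
  ∃ l, ∀ t ∈ Ioo u 1, g e t ∈ U l

/-- the blocked colours -/
def Blk (U : Fin k → Set ℂ) (x : ℂ) : Set (Fin k) := {i | ∃ y ∈ closure (U i), dist x y = 1}

/-- `x` is a regular inner point of the arc `e` -/
def Reg (g : ι → ℝ → ℂ) (U : Fin k → Set ℂ) (e : ι) (x : ℂ) : Prop :=
  ∃ u ∈ Ioo (0 : ℝ) 1, g e u = x ∧ ¬ LT g U e u ∧ ¬ RT g U e u

/-- the colours allowed at the inner point `g e u` of an arc -/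
def cc (g : ι → ℝ → ℂ) (pal : ι → Set (Fin k)) (U : Fin k → Set ℂ) (e : ι) (u : ℝ) :
    Set (Fin k) :=
  {i | i ∈ pal e ∨ (∃ h : LT g U e u, i = h.choose) ∨ ∃ h : RT g U e u, i = h.choose}

/-- the allowed colours -/
def BB (g : ι → ℝ → ℂ) (pal : ι → Set (Fin k)) (U : Fin k → Set ℂ) (x : ℂ) : Set (Fin k) :=
  {i | (x ∈ XX U → i ∈ Blk U x ∧ Cn U x i) ∧
    ∀ e, ∀ u ∈ Ioo (0 : ℝ) 1, g e u = x → i ∈ cc g pal U e u}

/-- the special points -/
def Sp (g : ι → ℝ → ℂ) (U : Fin k → Set ℂ) : Set ℂ := {x | x ∈ XX U ∧ ¬ ∃ e, Reg g U e x}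

theorem isClosed_blk (U : Fin k → Set ℂ) (i : Fin k) : IsClosed {x | i ∈ Blk U x} := by
  rw [← isSeqClosed_iff_isClosed]
  intro x x₀ hx hlim
  choose y hy hxy using hx
  -- the partners are bounded
  obtain ⟨R, hR⟩ := (Metric.isBounded_range_of_tendsto x hlim).subset_closedBall 0
  have hy' : ∀ n, y n ∈ closedBall (0 : ℂ) (R + 1) := by
    intro n
    have h1 : dist (x n) 0 ≤ R := hR (mem_range_self n)
    have h2 := dist_triangle_left (y n) 0 (x n)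
    rw [hxy n] at h2
    exact mem_closedBall.2 (by linarith)
  obtain ⟨y₀, -, φ, hφ, hy₀⟩ := (isCompact_closedBall (0 : ℂ) (R + 1)).tendsto_subseq hy'
  refine ⟨y₀, isClosed_closure.mem_of_tendsto hy₀ (Eventually.of_forall fun n => hy (φ n)), ?_⟩
  have h3 := (hlim.comp hφ.tendsto_atTop).dist hy₀
  refine tendsto_nhds_unique h3 (tendsto_const_nhds.congr fun n => ?_)
  exact (hxy (φ n)).symm

theorem blk_nhd (U : Fin k → Set ℂ) (x : ℂ) : ∀ᶠ y in 𝓝 x, Blk U y ⊆ Blk U x := by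
  have h1 : ∀ i, ∀ᶠ z in 𝓝 x, i ∈ Blk U z → i ∈ Blk U x := by
    intro i
    by_cases hx : i ∈ Blk U x
    · exact Eventually.of_forall fun z _ => hx
    · filter_upwards [(isClosed_blk U i).isOpen_compl.mem_nhds hx] with z hz hz'
      exact absurd hz' hz
  filter_upwards [eventually_all.2 h1] with z hz i hi
  exact hz i hi

/-- near an inner point of an arc the parameter is near -/
theorem Arcs.param (h : Arcs g) {e : ι} {u : ℝ} (hu : u ∈ Ioo (0 : ℝ) 1) {ε : ℝ} (hε : 0 < ε) :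
    ∀ᶠ w in 𝓝 (g e u), ∀ t ∈ Icc (0 : ℝ) 1, g e t = w → |t - u| < ε := by
  have hK : IsCompact (Icc (0 : ℝ) 1 ∩ (Ioo (u - ε) (u + ε))ᶜ) :=
    isCompact_Icc.inter_right isOpen_Ioo.isClosed_compl
  have hcl := (hK.image_of_continuousOn ((h.cont e).mono inter_subset_left)).isClosed
  have hx : g e u ∉ g e '' (Icc (0 : ℝ) 1 ∩ (Ioo (u - ε) (u + ε))ᶜ) := by
    rintro ⟨t, ht, hgt⟩
    have h1 := (h.inj e e u t hu ht.1 hgt.symm).2
    exact ht.2 (by rw [← h1]; exact ⟨by linarith, by linarith⟩)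
  filter_upwards [hcl.isOpen_compl.mem_nhds hx] with w hw t ht htw
  by_contra hcon
  refine hw ⟨t, ⟨ht, fun h2 => hcon (abs_lt.2 ⟨by linarith [h2.1], by linarith [h2.2]⟩)⟩, htw⟩

/-- near an inner point of an arc there is no other arc -/
theorem Arcs.only (h : Arcs g) {e : ι} {u : ℝ} (hu : u ∈ Ioo (0 : ℝ) 1) :
    ∀ᶠ w in 𝓝 (g e u), ∀ e', w ∈ g e' '' Icc 0 1 → e' = e := by
  have hcl : IsClosed (⋃ e' : {e' // e' ≠ e}, g e' '' Icc 0 1) :=
    (h.lf.comp_injective Subtype.val_injective).isClosed_iUnion fun e' =>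
      (isCompact_Icc.image_of_continuousOn (h.cont e')).isClosed
  have hx : g e u ∉ ⋃ e' : {e' // e' ≠ e}, g e' '' Icc 0 1 := by
    intro hcon
    obtain ⟨⟨e', he'⟩, t, ht, hgt⟩ := mem_iUnion.1 hcon
    exact he' (h.inj e e' u t hu ht hgt.symm).1.symm
  filter_upwards [hcl.isOpen_compl.mem_nhds hx] with w hw e' he'
  by_contra hne
  exact hw (mem_iUnion.2 ⟨⟨e', hne⟩, he'⟩)

theorem inner_nhd {u : ℝ} (hu : u ∈ Ioo (0 : ℝ) 1) :
    ∃ η > 0, ∀ t ∈ Ioo (u - η) (u + η), t ∈ Ioo (0 : ℝ) 1 := by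
  refine ⟨min u (1 - u), lt_min hu.1 (by linarith [hu.2]), fun t ht => ⟨?_, ?_⟩⟩
  · linarith [ht.1, min_le_left u (1 - u)]
  · linarith [ht.2, min_le_right u (1 - u)]

theorem LT.mono {e : ι} {u t : ℝ} (h : LT g U e u) (htu : t ≤ u) : LT g U e t :=
  h.imp fun _ hl s hs => hl s ⟨hs.1, lt_of_lt_of_le hs.2 htu⟩

theorem RT.mono {e : ι} {u t : ℝ} (h : RT g U e u) (htu : u ≤ t) : RT g U e t :=
  h.imp fun _ hl s hs => hl s ⟨lt_of_le_of_lt htu hs.1, hs.2⟩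

theorem LT_rev {e : ι} {u : ℝ} : LT (rev g) U e u ↔ RT g U e (1 - u) := by
  constructor
  · rintro ⟨l, hl⟩
    refine ⟨l, fun t ht => ?_⟩
    have := hl (1 - t) ⟨by linarith [ht.2], by linarith [ht.1]⟩
    simpa [rev] using this
  · rintro ⟨l, hl⟩
    exact ⟨l, fun t ht => hl (1 - t) ⟨by linarith [ht.2], by linarith [ht.1]⟩⟩

theorem RT_rev {e : ι} {u : ℝ} : RT (rev g) U e u ↔ LT g U e (1 - u) := by
  have := LT_rev (g := rev g) (U := U) (e := e) (u := 1 - u)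
  rw [rev_rev, sub_sub_cancel] at this
  exact this.symm

theorem Reg_rev {e : ι} {x : ℂ} : Reg (rev g) U e x ↔ Reg g U e x := by
  constructor
  · rintro ⟨u, hu, h1, h2, h3⟩
    exact ⟨1 - u, one_sub_Ioo hu, h1, fun h => h3 (RT_rev.2 h), fun h => h2 (LT_rev.2 h)⟩
  · rintro ⟨u, hu, h1, h2, h3⟩
    refine ⟨1 - u, one_sub_Ioo hu, by simpa [rev] using h1, fun h => h3 ?_, fun h => h2 ?_⟩
    · have := LT_rev.1 h; rwa [sub_sub_cancel] at this
    · have := RT_rev.1 h; rwa [sub_sub_cancel] at this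

theorem not_LT_near {e : ι} {u : ℝ} (h : ¬ LT g U e u) :
    ∃ ε > 0, ∀ t, u - ε < t → ¬ LT g U e t := by
  unfold LT at h
  push Not at h
  choose s hs hsU using h
  obtain ⟨m, hm, hm1⟩ : ∃ m, m < u ∧ ∀ l, s l ≤ m := by
    rcases isEmpty_or_nonempty (Fin k) with h1 | h1
    · exact ⟨u - 1, by linarith, fun l => (h1.false l).elim⟩
    · obtain ⟨l, hl⟩ := Finite.exists_max s
      exact ⟨s l, (hs l).2, hl⟩
  refine ⟨u - m, by linarith, fun t ht hT => ?_⟩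
  obtain ⟨l, hl⟩ := hT
  exact hsU l (hl (s l) ⟨(hs l).1, lt_of_le_of_lt (hm1 l) (by linarith)⟩)

theorem not_RT_near {e : ι} {u : ℝ} (h : ¬ RT g U e u) :
    ∃ ε > 0, ∀ t, t < u + ε → ¬ RT g U e t := by
  unfold RT at h
  push Not at h
  choose s hs hsU using h
  obtain ⟨m, hm, hm1⟩ : ∃ m, u < m ∧ ∀ l, m ≤ s l := by
    rcases isEmpty_or_nonempty (Fin k) with h1 | h1
    · exact ⟨u + 1, by linarith, fun l => (h1.false l).elim⟩
    · obtain ⟨l, hl⟩ := Finite.exists_min s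
      exact ⟨s l, (hs l).1, hl⟩
  refine ⟨m - u, by linarith, fun t ht hT => ?_⟩
  obtain ⟨l, hl⟩ := hT
  exact hsU l (hl (s l) ⟨lt_of_lt_of_le (by linarith) (hm1 l), (hs l).2⟩)

/-- the points `g e u` we look at: in `XX U`, or regular -/
def Pt (g : ι → ℝ → ℂ) (U : Fin k → Set ℂ) (e : ι) (u : ℝ) : Prop :=
  g e u ∈ XX U ∨ (¬ LT g U e u ∧ ¬ RT g U e u)

theorem Pt.not_RT {e : ι} {u t : ℝ} (hu : u ∈ Ioo (0 : ℝ) 1) (h : Pt g U e u) (htu : t < u) :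
    ¬ RT g U e t := by
  intro hR
  rcases h with hX | h
  · obtain ⟨l, hl⟩ := hR
    exact hX l (hl u ⟨htu, hu.2⟩)
  · exact h.2 (hR.mono htu.le)

theorem Pt.not_LT {e : ι} {u t : ℝ} (hu : u ∈ Ioo (0 : ℝ) 1) (h : Pt g U e u) (hut : u < t) :
    ¬ LT g U e t := by
  intro hL
  rcases h with hX | h
  · obtain ⟨l, hl⟩ := hL
    exact hX l (hl u ⟨hu.1, hut⟩)
  · exact h.1 (hL.mono hut.le)

/-- on one arc, near a point: a parameter `t` near `u` is regular, or before `u` and `u` is of left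
type, or after `u` and `u` is of right type -/
theorem Pt.near {e : ι} {u : ℝ} (hu : u ∈ Ioo (0 : ℝ) 1) (h : Pt g U e u) :
    ∃ ε > 0, ∀ t, |t - u| < ε → t ∈ Ioo (0 : ℝ) 1 ∧ (t = u ∨ (¬ LT g U e t ∧ ¬ RT g U e t) ∨
      (t < u ∧ LT g U e u) ∨ (u < t ∧ RT g U e u)) := by
  obtain ⟨ε1, hε1, h1⟩ : ∃ ε > 0, ∀ t, u - ε < t → LT g U e t → LT g U e u := by
    by_cases hL : LT g U e u
    · exact ⟨1, one_pos, fun _ _ _ => hL⟩
    · obtain ⟨ε, hε, h1⟩ := not_LT_near hL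
      exact ⟨ε, hε, fun t ht ht' => absurd ht' (h1 t ht)⟩
  obtain ⟨ε2, hε2, h2⟩ : ∃ ε > 0, ∀ t, t < u + ε → RT g U e t → RT g U e u := by
    by_cases hL : RT g U e u
    · exact ⟨1, one_pos, fun _ _ _ => hL⟩
    · obtain ⟨ε, hε, h1⟩ := not_RT_near hL
      exact ⟨ε, hε, fun t ht ht' => absurd ht' (h1 t ht)⟩
  obtain ⟨η, hη, hη1⟩ := inner_nhd hu
  refine ⟨min (min ε1 ε2) η, lt_min (lt_min hε1 hε2) hη, fun t ht => ?_⟩
  have h3 := abs_lt.1 ht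
  have m1 := min_le_left (min ε1 ε2) η
  have m2 := min_le_right (min ε1 ε2) η
  have m3 := min_le_left ε1 ε2
  have m4 := min_le_right ε1 ε2
  refine ⟨hη1 t ⟨by linarith [h3.1], by linarith [h3.2]⟩, ?_⟩
  rcases lt_trichotomy t u with htu | htu | htu
  · by_cases hL : LT g U e t
    · exact Or.inr (Or.inr (Or.inl ⟨htu, h1 t (by linarith [h3.1]) hL⟩))
    · exact Or.inr (Or.inl ⟨hL, h.not_RT hu htu⟩)
  · exact Or.inl htu
  · by_cases hR : RT g U e t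
    · exact Or.inr (Or.inr (Or.inr ⟨htu, h2 t (by linarith [h3.2]) hR⟩))
    · exact Or.inr (Or.inl ⟨h.not_LT hu htu, hR⟩)

namespace GMax

theorem on_arc (h : GMax g pal V U) (hb : Base g pal V) {x : ℂ} (hx : x ∈ XX U) :
    ∃ e, x ∈ g e '' Icc 0 1 := by
  by_contra hcon
  push Not at hcon
  obtain ⟨i, hi⟩ := hb.off x hcon
  exact hx i (h.sub i hi)

/-- the local picture at an inner point of an arc -/
theorem near_inner (h : GMax g pal V U) (hb : Base g pal V) {e : ι} {u : ℝ}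
    (hu : u ∈ Ioo (0 : ℝ) 1) (hP : Pt g U e u) : ∀ᶠ w in 𝓝 (g e u), w ∉ XX U →
      (∃ i ∈ pal e, w ∈ U i) ∨ (∃ t ∈ Ioo 0 u, LT g U e u ∧ g e t = w) ∨
        ∃ t ∈ Ioo u 1, RT g U e u ∧ g e t = w := by
  obtain ⟨ε, hε, hε1⟩ := hP.near hu
  filter_upwards [hb.near e u hu, h.arcs.param hu hε] with w hw1 hw2 hwX
  rcases hw1 with ⟨t, ht, rfl⟩ | ⟨i, hi, hwi⟩
  · obtain ⟨ht', h4⟩ := hε1 t (hw2 t ht rfl)
    rcases h4 with rfl | ⟨hL, hR⟩ | ⟨htu, hL⟩ | ⟨htu, hR⟩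
    · rcases hP with hX | ⟨hL, hR⟩
      · exact absurd hX hwX
      · rcases h.good e t ht' with h5 | h5 | h5 | h5
        · exact absurd h5 hwX
        · exact Or.inl h5
        · exact absurd h5 hL
        · exact absurd h5 hR
    · rcases h.good e t ht' with h5 | h5 | h5 | h5
      · exact absurd h5 hwX
      · exact Or.inl h5
      · exact absurd h5 hL
      · exact absurd h5 hR
    · exact Or.inr (Or.inl ⟨t, ⟨ht'.1, htu⟩, hL, rfl⟩)
    · exact Or.inr (Or.inr ⟨t, ⟨htu, ht'.2⟩, hR, rfl⟩)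
  · exact Or.inl ⟨i, hi, h.sub i hwi⟩

theorem cc_blk (h : GMax g pal V U) {e : ι} {u : ℝ} (hu : u ∈ Ioo (0 : ℝ) 1)
    (hX : g e u ∈ XX U) : cc g pal U e u ⊆ Blk U (g e u) := by
  rintro i (hi | ⟨hl, rfl⟩ | ⟨hl, rfl⟩)
  · exact h.blk_pal hu hX hi
  · exact h.blk_left hu hX hl.choose_spec
  · exact h.blk_right hu hX hl.choose_spec

/-- a colour of left type is connected to the point -/
theorem cn_left (h : GMax g pal V U) {e : ι} {u : ℝ} (hu : u ∈ Ioo (0 : ℝ) 1) {l : Fin k}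
    (hl : ∀ t ∈ Ioo 0 u, g e t ∈ U l) : Cn U (g e u) l := by
  have hc : ContinuousOn (g e) (Ioc 0 u) := (h.arcs.cont e).mono fun t ht =>
    ⟨ht.1.le, ht.2.trans hu.2.le⟩
  refine ⟨g e '' Ioc 0 u, ?_, isPreconnected_Ioc.image _ hc, ⟨u, ⟨hu.1, le_rfl⟩, rfl⟩,
    g e (u / 2), ⟨u / 2, ⟨by linarith [hu.1], by linarith [hu.1]⟩, rfl⟩,
    hl _ ⟨by linarith [hu.1], by linarith [hu.1]⟩⟩
  rintro _ ⟨t, ht, rfl⟩
  have h1 : ContinuousWithinAt (g e) (Ioo 0 u) t := (hc t ht).mono Ioo_subset_Ioc_self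
  have h2 : t ∈ closure (Ioo 0 u) := by
    rw [closure_Ioo hu.1.ne]
    exact Ioc_subset_Icc_self ht
  exact h1.mem_closure h2 fun x hx => hl x hx

theorem cn_right (h : GMax g pal V U) {e : ι} {u : ℝ} (hu : u ∈ Ioo (0 : ℝ) 1) {l : Fin k}
    (hl : ∀ t ∈ Ioo u 1, g e t ∈ U l) : Cn U (g e u) l := by
  have h1 := h.rev.cn_left (e := e) (u := 1 - u) (one_sub_Ioo hu) (l := l) (fun t ht => by
    refine hl (1 - t) ⟨by linarith [ht.2], by linarith [ht.1]⟩)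
  simpa [H355.rev] using h1

/-- the same at the start of the arc -/
theorem cn_zero (h : GMax g pal V U) {e : ι} {u : ℝ} (hu : u ∈ Ioo (0 : ℝ) 1) {l : Fin k}
    (hl : ∀ t ∈ Ioo 0 u, g e t ∈ U l) : Cn U (g e 0) l := by
  have hc : ContinuousOn (g e) (Ico 0 u) := (h.arcs.cont e).mono fun t ht =>
    ⟨ht.1, ht.2.le.trans hu.2.le⟩
  refine ⟨g e '' Ico 0 u, ?_, isPreconnected_Ico.image _ hc, ⟨0, ⟨le_rfl, hu.1⟩, rfl⟩,
    g e (u / 2), ⟨u / 2, ⟨by linarith [hu.1], by linarith [hu.1]⟩, rfl⟩,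
    hl _ ⟨by linarith [hu.1], by linarith [hu.1]⟩⟩
  rintro _ ⟨t, ht, rfl⟩
  have h1 : ContinuousWithinAt (g e) (Ioo 0 u) t := (hc t ht).mono Ioo_subset_Ico_self
  have h2 : t ∈ closure (Ioo 0 u) := by
    rw [closure_Ioo hu.1.ne]
    exact Ico_subset_Icc_self ht
  exact h1.mem_closure h2 fun x hx => hl x hx

theorem cn_pal (h : GMax g pal V U) (hb : Base g pal V) {e : ι} {u : ℝ}
    (hu : u ∈ Ioo (0 : ℝ) 1) {i : Fin k} (hi : i ∈ pal e) : Cn U (g e u) i :=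
  (hb.conn i _ (hb.palcl e u hu i hi)).mono (h.sub i)

theorem cn_pal_zero (h : GMax g pal V U) (hb : Base g pal V) {e : ι} {i : Fin k}
    (hi : i ∈ pal e) : Cn U (g e 0) i := by
  refine (hb.conn i _ ?_).mono (h.sub i)
  have hc : ContinuousWithinAt (g e) (Ioo 0 1) 0 :=
    (h.arcs.cont e 0 (left_mem_Icc.2 zero_le_one)).mono Ioo_subset_Icc_self
  have h2 : (0 : ℝ) ∈ closure (Ioo (0 : ℝ) 1) := by
    rw [closure_Ioo zero_ne_one]
    exact left_mem_Icc.2 zero_le_one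
  have h3 := hc.mem_closure (t := closure (V i)) h2 fun t ht => hb.palcl e t ht i hi
  rwa [closure_closure] at h3

theorem cc_cn (h : GMax g pal V U) (hb : Base g pal V) {e : ι} {u : ℝ}
    (hu : u ∈ Ioo (0 : ℝ) 1) {i : Fin k} (hi : i ∈ cc g pal U e u) : Cn U (g e u) i := by
  rcases hi with hi | ⟨hl, rfl⟩ | ⟨hl, rfl⟩
  · exact h.cn_pal hb hu hi
  · exact h.cn_left hu hl.choose_spec
  · exact h.cn_right hu hl.choose_spec

theorem BB_inner (h : GMax g pal V U) (hb : Base g pal V) {e : ι} {u : ℝ}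
    (hu : u ∈ Ioo (0 : ℝ) 1) : BB g pal U (g e u) = cc g pal U e u := by
  refine Subset.antisymm (fun i hi => hi.2 e u hu rfl) fun i hi =>
    ⟨fun hX => ⟨h.cc_blk hu hX hi, h.cc_cn hb hu hi⟩, fun e' u' hu' he => ?_⟩
  obtain ⟨rfl, rfl⟩ := h.arcs.inj e e' u u' hu (Ioo_subset_Icc_self hu') he.symm
  exact hi

theorem cc_reg {e : ι} {u : ℝ} (hL : ¬ LT g U e u) (hR : ¬ RT g U e u) :
    cc g pal U e u = pal e := by
  ext i
  constructor
  · rintro (hi | ⟨hl, -⟩ | ⟨hl, -⟩)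
    · exact hi
    · exact absurd hl hL
    · exact absurd hl hR
  · exact fun hi => Or.inl hi

theorem BB_reg (h : GMax g pal V U) (hb : Base g pal V) {e : ι} {x : ℂ} (hr : Reg g U e x) :
    BB g pal U x = pal e := by
  obtain ⟨u, hu, rfl, hL, hR⟩ := hr
  rw [h.BB_inner hb hu, cc_reg hL hR]

/-- at a point of `XX U` which is no inner point of an arc all connected colours are allowed -/
theorem BB_end (h : GMax g pal V U) {x : ℂ} (hX : x ∈ XX U)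
    (hx : ∀ e, ∀ u ∈ Ioo (0 : ℝ) 1, g e u ≠ x) {i : Fin k} (hi : Cn U x i) :
    i ∈ BB g pal U x :=
  ⟨fun _ => ⟨h.blk_end hX hx i, hi⟩, fun e u hu he => absurd he (hx e u hu)⟩

/-- near the start of an arc the connected colours suffice -/
theorem start_suff (h : GMax g pal V U) (hb : Base g pal V) (e : ι) :
    ∃ η > 0, ∀ t ∈ Ioo (0 : ℝ) 1, t < η → g e t ∉ XX U → ∃ j, g e t ∈ U j ∧ Cn U (g e 0) j := by
  by_cases hL : ∃ u ∈ Ioo (0 : ℝ) 1, LT g U e u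
  · obtain ⟨u, hu, l, hl⟩ := hL
    exact ⟨u, hu.1, fun t ht htu _ => ⟨l, hl t ⟨ht.1, htu⟩, h.cn_zero hu hl⟩⟩
  · push Not at hL
    have h2 : ¬ LT g U e (1 / 2) := hL _ (by norm_num)
    unfold LT at h2
    push Not at h2
    choose s hs hsU using h2
    obtain ⟨m, hm, hm1⟩ : ∃ m, 0 < m ∧ ∀ l, m ≤ s l := by
      rcases isEmpty_or_nonempty (Fin k) with h1 | h1
      · exact ⟨1, one_pos, fun l => (h1.false l).elim⟩
      · obtain ⟨l, hl⟩ := Finite.exists_min s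
        exact ⟨s l, (hs l).1, hl⟩
    refine ⟨m, hm, fun t ht htm htX => ?_⟩
    rcases h.good e t ht with h5 | ⟨i, hi, hti⟩ | h5 | ⟨l, hl⟩
    · exact absurd h5 htX
    · exact ⟨i, hti, h.cn_pal_zero hb hi⟩
    · exact absurd h5 (hL t ht)
    · exact absurd (hl (s l) ⟨lt_of_lt_of_le htm (hm1 l), by linarith [(hs l).2]⟩) (hsU l)

theorem cc_ncard (hb : Base g pal V) (e : ι) (u : ℝ) (hn : ¬ (LT g U e u ∧ RT g U e u)) :
    (cc g pal U e u).ncard ≤ 3 := by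
  have h4 := hb.pal_two e
  have key : ∀ l, cc g pal U e u ⊆ insert l (pal e) → (cc g pal U e u).ncard ≤ 3 := by
    intro l h1
    have h2 := Set.ncard_le_ncard h1 (Set.toFinite _)
    have h3 := Set.ncard_insert_le l (pal e)
    omega
  by_cases hL : LT g U e u
  · refine key hL.choose ?_
    rintro i (hi | ⟨hl, rfl⟩ | ⟨hl, -⟩)
    · exact Or.inr hi
    · exact Or.inl rfl
    · exact absurd ⟨hL, hl⟩ hn
  · by_cases hR : RT g U e u
    · refine key hR.choose ?_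
      rintro i (hi | ⟨hl, rfl⟩ | ⟨hl, rfl⟩)
      · exact Or.inr hi
      · exact absurd hl hL
      · exact Or.inl rfl
    · rw [cc_reg hL hR]
      omega

/-- the allowed colours are sufficient -/
theorem suff_inner (h : GMax g pal V U) (hb : Base g pal V) {e : ι} {u : ℝ}
    (hu : u ∈ Ioo (0 : ℝ) 1) (hP : Pt g U e u) :
    ∀ᶠ w in 𝓝 (g e u), w ∉ XX U → ∃ j ∈ cc g pal U e u, w ∈ U j := by
  filter_upwards [h.near_inner hb hu hP] with w hw hwX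
  rcases hw hwX with ⟨i, hi, hwi⟩ | ⟨t, ht, hL, rfl⟩ | ⟨t, ht, hR, rfl⟩
  · exact ⟨i, Or.inl hi, hwi⟩
  · exact ⟨hL.choose, Or.inr (Or.inl ⟨hL, rfl⟩), hL.choose_spec t ht⟩
  · exact ⟨hR.choose, Or.inr (Or.inr ⟨hR, rfl⟩), hR.choose_spec t ht⟩

/-- near an inner point of an arc, the points on arcs -/
theorem near_arc (h : GMax g pal V U) {e : ι} {u : ℝ}
    (hu : u ∈ Ioo (0 : ℝ) 1) (hP : Pt g U e u) :
    ∀ᶠ y in 𝓝 (g e u), ∀ e', ∀ t ∈ Icc (0 : ℝ) 1, g e' t = y → e' = e ∧ t ∈ Ioo (0 : ℝ) 1 ∧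
      (t = u ∨ (¬ LT g U e t ∧ ¬ RT g U e t) ∨ (t < u ∧ LT g U e u) ∨ (u < t ∧ RT g U e u)) := by
  obtain ⟨ε, hε, hε1⟩ := hP.near hu
  filter_upwards [h.arcs.only hu, h.arcs.param hu hε] with y h1 h2 e' t ht hty
  have he : e' = e := h1 e' ⟨t, ht, hty⟩
  subst he
  exact ⟨rfl, hε1 t (h2 t ht hty)⟩

theorem reg_near (h : GMax g pal V U) (hb : Base g pal V) {x : ℂ} (hr : ∃ e, Reg g U e x) :
    ∀ᶠ y in 𝓝 x, y ∈ XX U → ∃ e, Reg g U e y := by
  obtain ⟨e, u, hu, rfl, hL, hR⟩ := hr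
  filter_upwards [h.near_arc hu (Or.inr ⟨hL, hR⟩)] with y hy hyX
  obtain ⟨e', t, ht, hty⟩ := h.on_arc hb hyX
  obtain ⟨rfl, ht', h1⟩ := hy e' t ht hty
  rcases h1 with rfl | h1 | h1 | h1
  · exact ⟨e', t, ht', hty, hL, hR⟩
  · exact ⟨e', t, ht', hty, h1⟩
  · exact absurd h1.2 hL
  · exact absurd h1.2 hR

theorem isClosed_Sp (h : GMax g pal V U) (hb : Base g pal V) : IsClosed (Sp g U) := by
  rw [← isOpen_compl_iff, isOpen_iff_mem_nhds]
  intro x hx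
  by_cases hX : x ∈ XX U
  · have hr : ∃ e, Reg g U e x := by
      by_contra hcon
      exact hx ⟨hX, hcon⟩
    filter_upwards [h.reg_near hb hr] with y hy hyS
    exact hyS.2 (hy hyS.1)
  · filter_upwards [h.isClosed_XX.isOpen_compl.mem_nhds hX] with y hy hyS
    exact hy hyS.1

theorem finite_Sp_arc (e : ι) : (Sp g U ∩ g e '' Icc 0 1).Finite := by
  have hA : {x | ∃ u ∈ Ioo (0 : ℝ) 1, g e u = x ∧ x ∈ XX U ∧ LT g U e u}.Subsingleton := by
    rintro _ ⟨u, hu, rfl, hX, hL⟩ _ ⟨u', hu', rfl, hX', hL'⟩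
    rcases lt_trichotomy u u' with h1 | h1 | h1
    · obtain ⟨l, hl⟩ := hL'
      exact absurd (hl u ⟨hu.1, h1⟩) (hX l)
    · rw [h1]
    · obtain ⟨l, hl⟩ := hL
      exact absurd (hl u' ⟨hu'.1, h1⟩) (hX' l)
  have hB : {x | ∃ u ∈ Ioo (0 : ℝ) 1, g e u = x ∧ x ∈ XX U ∧ RT g U e u}.Subsingleton := by
    rintro _ ⟨u, hu, rfl, hX, hL⟩ _ ⟨u', hu', rfl, hX', hL'⟩
    rcases lt_trichotomy u u' with h1 | h1 | h1
    · obtain ⟨l, hl⟩ := hL
      exact absurd (hl u' ⟨h1, hu'.2⟩) (hX' l)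
    · rw [h1]
    · obtain ⟨l, hl⟩ := hL'
      exact absurd (hl u ⟨h1, hu.2⟩) (hX l)
  refine ((hA.finite.union hB.finite).union (Set.toFinite {g e 0, g e 1})).subset ?_
  rintro x ⟨⟨hX, hS⟩, u, hu, rfl⟩
  rcases eq_or_lt_of_le hu.1 with h0 | h0
  · exact Or.inr (Or.inl (by rw [← h0]))
  rcases eq_or_lt_of_le hu.2 with h1 | h1
  · exact Or.inr (Or.inr (by rw [h1]; rfl))
  by_cases hL : LT g U e u
  · exact Or.inl (Or.inl ⟨u, ⟨h0, h1⟩, rfl, hX, hL⟩)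
  by_cases hR : RT g U e u
  · exact Or.inl (Or.inr ⟨u, ⟨h0, h1⟩, rfl, hX, hR⟩)
  exact absurd ⟨e, u, ⟨h0, h1⟩, rfl, hL, hR⟩ hS

theorem lf (h : GMax g pal V U) (hb : Base g pal V) (x : ℂ) :
    ∃ t ∈ 𝓝 x, (Sp g U ∩ t).Finite := by
  obtain ⟨t, ht, hfin⟩ := h.arcs.lf x
  refine ⟨t, ht, (hfin.biUnion fun e _ => finite_Sp_arc (g := g) (U := U) e).subset ?_⟩
  rintro y ⟨hyS, hyt⟩
  obtain ⟨e, he⟩ := h.on_arc hb hyS.1
  exact mem_iUnion₂.2 ⟨e, ⟨y, he, hyt⟩, hyS, he⟩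

end GMax

end Vale.Agent.P032.H355
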